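namespace Vale.Agent.Lib.P052

def allLt (n : Nat) (f : Nat → Bool) : Bool :=
  Nat.rec true (fun k ih => and ih (f k)) n

def allIn (lo hi : Nat) (f : Nat → Bool) : Bool :=
  allLt (hi - lo) (fun k => f (lo + k))

def pk (a : Nat → Nat) (n : Nat) : Nat :=
  Nat.rec 0 (fun k ih => ih + a k * 65536 ^ k) n

def qk (a : Nat → Nat) (n : Nat) : Nat :=
  Nat.rec 0 (fun k ih => 65536 * ih + a k) n

/-- salted form of a bit set: the low word holds a residue of the value -/
def enc (x : Nat) : Nat := x * 4294967296 + x % 4294967291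

/-- inverse of `enc` -/
def dec (r : Nat) : Nat := r >>> 32

def forallBits (g : Nat → Bool) (fuel : Nat) : Nat → Bool :=
  Nat.rec (fun r => Nat.beq r 0)
    (fun _ ih r =>
      Nat.rec true
        (fun c _ =>
          and (g (dec (c + 1) - (dec (c + 1) &&& (dec (c + 1) - 1))))
            (ih (enc (dec (c + 1) &&& (dec (c + 1) - 1))))) r) fuel

def noK (mR : Nat → Nat) (p w k : Nat) : Nat → Bool :=
  Nat.rec (fun _ => false)
    (fun j ih r =>
      Nat.rec (Nat.beq r 0)
        (fun _ _ => forallBits (fun b => ih (enc (dec r &&& mR (b % p)))) w r) j) k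

end Vale.Agent.Lib.P052
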