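import Vale.Agent.Lib.P052.Data63
import Vale.Agent.Lib.P052.Kern

namespace Vale.Agent.Lib.P052.D63

open Vale.Agent.Lib.P052

def row (i : Nat) : Nat := (rowBig >>> (1008 * i)) % 2 ^ 1008

def rev (i : Nat) : Nat := (revBig >>> (1008 * i)) % 2 ^ 1008

def maskR (r : Nat) : Nat := maskBig >>> (321 * r)

def mask (i : Nat) : Nat := maskR (2 ^ i % 347)

def dig (i k : Nat) : Nat := (row i >>> (16 * k)) % 65536

def dotP (i j : Nat) : Nat := ((row i * rev j) >>> 992) % 65536

def pairOK (i j : Nat) : Bool :=
  Nat.beq (dotP i i + dotP j j)
    (2 * dotP i j +
      cond ((mask i).testBit j) (cond (Nat.beq i 320) 88 96) (cond (Nat.beq i 320) 120 128))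

def originOK (i : Nat) : Bool :=
  Nat.beq (dotP i i + dotP 321 321) (2 * dotP i 321 + cond (Nat.beq i 320) 52 60)

def digitsOK (i : Nat) : Bool :=
  and (and (Nat.beq (row i) (pk (dig i) 63)) (Nat.beq (rev i) (qk (dig i) 63)))
    (allLt 63 (fun k => Nat.ble (dig i k) 8))

def topOK (v : Nat) : Bool := noK maskR 347 321 5 (enc (mask v % 2 ^ v))

theorem digits_check : allLt 322 digitsOK = true := by decide +kernel

theorem origin_check : allLt 321 originOK = true := by decide +kernel

theorem pairs_check : allLt 321 (fun i => allLt i (fun j => pairOK i j)) = true := by decide +kernel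

theorem clique_check_0 : allIn 0 155 topOK = true := by decide +kernel

theorem clique_check_1 : allIn 155 189 topOK = true := by decide +kernel

theorem clique_check_2 : allIn 189 210 topOK = true := by decide +kernel

theorem clique_check_3 : allIn 210 227 topOK = true := by decide +kernel

theorem clique_check_4 : allIn 227 241 topOK = true := by decide +kernel

theorem clique_check_5 : allIn 241 253 topOK = true := by decide +kernel

theorem clique_check_6 : allIn 253 264 topOK = true := by decide +kernel

theorem clique_check_7 : allIn 264 273 topOK = true := by decide +kernel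

theorem clique_check_8 : allIn 273 282 topOK = true := by decide +kernel

theorem clique_check_9 : allIn 282 289 topOK = true := by decide +kernel

theorem clique_check_10 : allIn 289 296 topOK = true := by decide +kernel

theorem clique_check_11 : allIn 296 302 topOK = true := by decide +kernel

theorem clique_check_12 : allIn 302 309 topOK = true := by decide +kernel

theorem clique_check_13 : allIn 309 315 topOK = true := by decide +kernel

theorem clique_check_14 : allIn 315 321 topOK = true := by decide +kernel


end Vale.Agent.Lib.P052.D63
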