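import Vale.Agent.Lib.P052.ChecksDefs

namespace Vale.Agent.Lib.P052

theorem check_k6_0 : allFrom 96 noK5Below 82 = true := by decide +kernel

theorem check_k6_1 : allFrom 178 noK5Below 31 = true := by decide +kernel

theorem check_k6_2 : allFrom 209 noK5Below 15 = true := by decide +kernel

theorem check_k6_3 : allFrom 224 noK5Below 10 = true := by decide +kernel

theorem check_k6_4 : allFrom 234 noK5Below 10 = true := by decide +kernel

theorem check_k6_5 : allFrom 244 noK5Below 9 = true := by decide +kernel

theorem check_k6_6 : allFrom 253 noK5Below 8 = true := by decide +kernel

theorem check_k6_7 : allFrom 261 noK5Below 7 = true := by decide +kernel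

theorem check_k6_8 : allFrom 268 noK5Below 6 = true := by decide +kernel

theorem check_k6_9 : allFrom 274 noK5Below 5 = true := by decide +kernel

theorem check_k6_10 : allFrom 279 noK5Below 5 = true := by decide +kernel

theorem check_k6_11 : allFrom 284 noK5Below 4 = true := by decide +kernel

theorem check_k6_12 : allFrom 288 noK5Below 2 = true := by decide +kernel

theorem check_k6_13 : allFrom 290 noK5Below 2 = true := by decide +kernel

theorem check_k6_14 : allFrom 292 noK5Below 2 = true := by decide +kernel

theorem check_k6_15 : allFrom 294 noK5Below 2 = true := by decide +kernel

theorem check_k6_16 : allFrom 296 noK5Below 2 = true := by decide +kernel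

theorem check_k6_17 : allFrom 298 noK5Below 2 = true := by decide +kernel

theorem check_k6_18 : allFrom 300 noK5Below 2 = true := by decide +kernel

theorem check_k6_19 : allFrom 302 noK5Below 2 = true := by decide +kernel

theorem check_k6_20 : allFrom 304 noK5Below 2 = true := by decide +kernel

theorem check_k6_21 : allFrom 306 noK5Below 2 = true := by decide +kernel

theorem check_k6_22 : allFrom 308 noK5Below 2 = true := by decide +kernel

theorem check_k6_23 : allFrom 310 noK5Below 2 = true := by decide +kernel

theorem check_k6_24 : allFrom 312 noK5Below 2 = true := by decide +kernel

theorem check_k6_25 : allFrom 314 noK5Below 2 = true := by decide +kernel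

theorem check_k6_26 : allFrom 316 noK5Below 2 = true := by decide +kernel

theorem check_k6_27 : allFrom 318 noK5Below 2 = true := by decide +kernel

theorem check_k6_28 : allFrom 320 noK5Below 2 = true := by decide +kernel

theorem check_k6_29 : allFrom 322 noK5Below 2 = true := by decide +kernel

theorem check_k6_30 : allFrom 324 noK5Below 2 = true := by decide +kernel

theorem check_k6_31 : allFrom 326 noK5Below 2 = true := by decide +kernel

theorem check_k6_32 : allFrom 328 noK5Below 2 = true := by decide +kernel

theorem check_k6_33 : allFrom 330 noK5Below 1 = true := by decide +kernel

theorem check_k6_34 : allFrom 331 noK5Below 2 = true := by decide +kernel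

theorem check_k6_35 : allFrom 333 noK5Below 2 = true := by decide +kernel

theorem check_k6_36 : allFrom 335 noK5Below 2 = true := by decide +kernel

theorem check_k6_37 : allFrom 337 noK5Below 2 = true := by decide +kernel

theorem check_k6_38 : allFrom 339 noK5Below 1 = true := by decide +kernel

theorem check_k6_39 : allFrom 340 noK5Below 2 = true := by decide +kernel

end Vale.Agent.Lib.P052
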