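import Vale.Agent.Lib.P052.ChecksDefs

namespace Vale.Agent.Lib.P052

theorem check_k6_40 : allFrom 342 noK5Below 1 = true := by decide +kernel

theorem check_k6_41 : allFrom 343 noK5Below 1 = true := by decide +kernel

theorem check_k6_42 : allFrom 344 noK5Below 1 = true := by decide +kernel

theorem check_k6_43 : allFrom 345 noK5Below 1 = true := by decide +kernel

theorem check_k6_44 : allFrom 346 noK5Below 1 = true := by decide +kernel

theorem check_k6_45 : allFrom 347 noK5Below 1 = true := by decide +kernel

theorem check_k6_46 : allFrom 348 noK5Below 1 = true := by decide +kernel

theorem check_k6_47 : allFrom 349 noK5Below 1 = true := by decide +kernel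

theorem check_k6_48 : allFrom 350 noK5Below 1 = true := by decide +kernel

theorem check_k6_49 : allFrom 351 noK5Below 1 = true := by decide +kernel

theorem check_k6_50 : allFrom 352 noK5Below 1 = true := by decide +kernel

theorem check_k6_51 : allFrom 353 noK5Below 1 = true := by decide +kernel

theorem check_k6_52 : allFrom 354 noK5Below 1 = true := by decide +kernel

theorem check_k6_53 : allFrom 355 noK5Below 1 = true := by decide +kernel

theorem check_k6_54 : allFrom 356 noK5Below 1 = true := by decide +kernel

theorem check_k6_55 : allFrom 357 noK5Below 1 = true := by decide +kernel

theorem check_k6_56 : allFrom 358 noK5Below 1 = true := by decide +kernel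

theorem check_k6_57 : allFrom 359 noK5Below 1 = true := by decide +kernel

theorem check_k6_58 : allFrom 360 noK5Below 1 = true := by decide +kernel

theorem check_k6_59 : allFrom 361 noK5Below 1 = true := by decide +kernel

theorem check_k6_60 : allFrom 362 noK5Below 1 = true := by decide +kernel

theorem check_k6_61 : allFrom 363 noK5Below 1 = true := by decide +kernel

theorem check_k6_62 : allFrom 364 noK5Below 1 = true := by decide +kernel

theorem check_k6_63 : allFrom 365 noK5Below 1 = true := by decide +kernel

theorem check_k6_64 : allFrom 366 noK5Below 1 = true := by decide +kernel

theorem check_k6_65 : allFrom 367 noK5Below 1 = true := by decide +kernel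

theorem check_k6_66 : allFrom 368 noK5Below 1 = true := by decide +kernel

theorem check_k6_67 : allFrom 369 noK5Below 1 = true := by decide +kernel

theorem check_k6_68 : allFrom 370 noK5Below 1 = true := by decide +kernel

theorem check_k6_69 : allFrom 371 noK5Below 1 = true := by decide +kernel

theorem check_k6_70 : allFrom 372 noK5Below 1 = true := by decide +kernel

end Vale.Agent.Lib.P052
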