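import Vale.Agent.Lib.P052.ChecksDefs

namespace Vale.Agent.Lib.P052

theorem check_k6_71 : allFrom 373 noK5Below 1 = true := by decide +kernel

theorem check_k6_72 : allFrom 374 noK5Below 1 = true := by decide +kernel

theorem check_k6_73 : allFrom 375 noK5Below 1 = true := by decide +kernel

theorem check_k6_74 : allFrom 376 noK5Below 1 = true := by decide +kernel

theorem check_k6_75 : allFrom 377 noK5Below 1 = true := by decide +kernel

theorem check_k6_76 : allFrom 378 noK5Below 1 = true := by decide +kernel

theorem check_k6_77 : allFrom 379 noK5Below 1 = true := by decide +kernel

theorem check_k6_78 : allFrom 380 noK5Below 1 = true := by decide +kernel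

theorem check_k6_79 : allFrom 381 noK5Below 1 = true := by decide +kernel

theorem check_k6_80 : allFrom 382 noK5Below 1 = true := by decide +kernel

theorem check_k6_81 : allFrom 383 noK5Below 1 = true := by decide +kernel

theorem check_k6_82 : allFrom 384 noK5Below 1 = true := by decide +kernel

theorem check_k6_83 : allFrom 385 noK5Below 1 = true := by decide +kernel

theorem check_k6_84 : allFrom 386 noK5Below 1 = true := by decide +kernel

theorem check_k6_85 : allFrom 387 noK5Below 1 = true := by decide +kernel

theorem check_k6_86 : allFrom 388 noK5Below 1 = true := by decide +kernel

theorem check_k6_87 : allFrom 389 noK5Below 1 = true := by decide +kernel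

theorem check_k6_88 : allFrom 390 noK5Below 1 = true := by decide +kernel

theorem check_k6_89 : allFrom 391 noK5Below 1 = true := by decide +kernel

theorem check_k6_90 : allFrom 392 noK5Below 1 = true := by decide +kernel

theorem check_k6_91 : allFrom 393 noK5Below 1 = true := by decide +kernel

theorem check_k6_92 : allFrom 394 noK5Below 1 = true := by decide +kernel

theorem check_k6_93 : allFrom 395 noK5Below 1 = true := by decide +kernel

theorem check_k6_94 : allFrom 396 noK5Below 1 = true := by decide +kernel

end Vale.Agent.Lib.P052
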