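import Vale.Agent.Lib.P052.ChecksDefs

namespace Vale.Agent.Lib.P052

theorem check_k6_95 : allFrom 397 noK5Below 1 = true := by decide +kernel

theorem check_k6_96 : allFrom 398 noK5Below 1 = true := by decide +kernel

theorem check_k6_97 : allFrom 399 noK5Below 1 = true := by decide +kernel

theorem check_k6_98 : allFrom 400 noK5Below 1 = true := by decide +kernel

theorem check_k6_99 : allFrom 401 noK5Below 1 = true := by decide +kernel

theorem check_k6_100 : allFrom 402 noK5Below 1 = true := by decide +kernel

theorem check_k6_101 : allFrom 403 noK5Below 1 = true := by decide +kernel

theorem check_k6_102 : allFrom 404 noK5Below 1 = true := by decide +kernel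

theorem check_k6_103 : allFrom 405 noK5Below 1 = true := by decide +kernel

theorem check_k6_104 : allFrom 406 noK5Below 1 = true := by decide +kernel

theorem check_k6_105 : allFrom 407 noK5Below 1 = true := by decide +kernel

theorem check_k6_106 : allFrom 408 noK5Below 1 = true := by decide +kernel

theorem check_k6_107 : allFrom 409 noK5Below 1 = true := by decide +kernel

theorem check_k6_108 : allFrom 410 noK5Below 1 = true := by decide +kernel

theorem check_k6_109 : allFrom 411 noK5Below 1 = true := by decide +kernel

theorem check_k6_110 : allFrom 412 noK5Below 1 = true := by decide +kernel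

theorem check_k6_111 : allFrom 413 noK5Below 1 = true := by decide +kernel

theorem check_k6_112 : allFrom 414 noK5Below 1 = true := by decide +kernel

theorem check_k6_113 : allFrom 415 noK5Below 1 = true := by decide +kernel

end Vale.Agent.Lib.P052
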