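import Vale.Agent.Lib.P052.ChecksDefs

namespace Vale.Agent.Lib.P052

theorem check_srg_0 : allFrom 0 srgRow 32 = true := by decide +kernel

theorem check_srg_1 : allFrom 32 srgRow 32 = true := by decide +kernel

theorem check_srg_2 : allFrom 64 srgRow 32 = true := by decide +kernel

theorem check_srg_3 : allFrom 96 srgRow 32 = true := by decide +kernel

theorem check_srg_4 : allFrom 128 srgRow 32 = true := by decide +kernel

theorem check_srg_5 : allFrom 160 srgRow 32 = true := by decide +kernel

theorem check_srg_6 : allFrom 192 srgRow 32 = true := by decide +kernel

theorem check_srg_7 : allFrom 224 srgRow 32 = true := by decide +kernel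

theorem check_srg_8 : allFrom 256 srgRow 32 = true := by decide +kernel

theorem check_srg_9 : allFrom 288 srgRow 32 = true := by decide +kernel

theorem check_srg_10 : allFrom 320 srgRow 32 = true := by decide +kernel

theorem check_srg_11 : allFrom 352 srgRow 32 = true := by decide +kernel

theorem check_srg_12 : allFrom 384 srgRow 32 = true := by decide +kernel

end Vale.Agent.Lib.P052
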