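import Vale.Agent.Lib.P052.ChecksA
import Vale.Agent.Lib.P052.ChecksSrg
import Vale.Agent.Lib.P052.ChecksK0
import Vale.Agent.Lib.P052.ChecksK1
import Vale.Agent.Lib.P052.ChecksK2
import Vale.Agent.Lib.P052.ChecksK3

/-!
The kernel-evaluated Boolean checks on the adjacency table, split into several modules so that
each of them builds quickly.  Definitions are in `ChecksDefs.lean`.
-/
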