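import Vale.Agent.Lib.P052.ChecksDefs

namespace Vale.Agent.Lib.P052

theorem check_symm_0 : allFrom 0 symRow 32 = true := by decide +kernel

theorem check_symm_1 : allFrom 32 symRow 32 = true := by decide +kernel

theorem check_symm_2 : allFrom 64 symRow 32 = true := by decide +kernel

theorem check_symm_3 : allFrom 96 symRow 32 = true := by decide +kernel

theorem check_symm_4 : allFrom 128 symRow 32 = true := by decide +kernel

theorem check_symm_5 : allFrom 160 symRow 32 = true := by decide +kernel

theorem check_symm_6 : allFrom 192 symRow 32 = true := by decide +kernel

theorem check_symm_7 : allFrom 224 symRow 32 = true := by decide +kernel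

theorem check_symm_8 : allFrom 256 symRow 32 = true := by decide +kernel

theorem check_symm_9 : allFrom 288 symRow 32 = true := by decide +kernel

theorem check_symm_10 : allFrom 320 symRow 32 = true := by decide +kernel

theorem check_symm_11 : allFrom 352 symRow 32 = true := by decide +kernel

theorem check_symm_12 : allFrom 384 symRow 32 = true := by decide +kernel

theorem check_irrefl : allBelow 416 (fun x => not (tb (row x) x)) = true := by decide +kernel

theorem check_cliqueU : cf 416 5 (Nat.land maskX (row 0)) = true := by decide +kernel

/-- Counts of neighbours in the three small orbits. -/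
theorem check_orb : allBelow 416 (fun z => and (Nat.beq (cnt z 0 32) (expCnt z 0))
    (and (Nat.beq (cnt z 32 32) (expCnt z 32)) (Nat.beq (cnt z 64 32) (expCnt z 64)))) = true := by
  decide +kernel

end Vale.Agent.Lib.P052
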