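import Vale.Agent.Lib.P052.Data

/-!
Kernel-evaluated Boolean checks on the adjacency table `row`.
Everything here is written with the primitive `Nat` functions so that the kernel's
big-number arithmetic does the work.  The meaning of the checks is proved in `Spec.lean`.
-/

namespace Vale.Agent.Lib.P052

/-- Conjunction over all indices below `n`. -/
def allBelow : Nat → (Nat → Bool) → Bool
  | 0, _ => true
  | n + 1, p => and (p n) (allBelow n p)

/-- Bit test through primitive operations. -/
def tb (m y : Nat) : Bool := Nat.beq (Nat.land (Nat.shiftRight m y) 1) 1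

/-- The base of the positional encoding. -/
def B : Nat := 1024

/-- Power of the base. -/
def bp (y : Nat) : Nat := Nat.pow 2 (Nat.mul 10 y)

/-- Sum over `y < n` of `g y` for the `y` whose bit is set in `m`. -/
def sumBits (g : Nat → Nat) (m : Nat) : Nat → Nat
  | 0 => 0
  | n + 1 => Nat.add (sumBits g m n) (match tb m n with
      | true => g n
      | false => 0)

/-- Positional encoding of the neighbourhood of `v`. -/
def enc (v : Nat) : Nat := sumBits bp (row v) 416

/-- The encoding of all of `A ^ 2` row `x`. -/
def sq (x : Nat) : Nat := sumBits enc (row x) 416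

/-- Sum of `g` over `y < n`. -/
def sumTo (g : Nat → Nat) : Nat → Nat
  | 0 => 0
  | n + 1 => Nat.add (sumTo g n) (g n)

/-- Positional encoding of the all ones vector. -/
def allOnes : Nat := sumTo bp 416

/-- Row identity for `A ^ 2 = 100 I + 36 A + 20 (J - I - A)`. -/
def srgRow (x : Nat) : Bool :=
  Nat.beq (Nat.add (sq x) (Nat.add (Nat.mul 20 (enc x)) (Nat.mul 20 (bp x))))
    (Nat.add (Nat.mul 100 (bp x)) (Nat.add (Nat.mul 36 (enc x)) (Nat.mul 20 allOnes)))

/-- Highest bit search, used only as a hint. -/
def hb1 (m acc : Nat) : Nat :=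
  match Nat.beq (Nat.shiftRight m 1) 0 with
  | true => acc
  | false => Nat.add acc 1
/-- Highest bit search, used only as a hint. -/
def hb2 (m acc : Nat) : Nat :=
  match Nat.beq (Nat.shiftRight m 2) 0 with
  | true => hb1 m acc
  | false => hb1 (Nat.shiftRight m 2) (Nat.add acc 2)
/-- Highest bit search, used only as a hint. -/
def hb4 (m acc : Nat) : Nat :=
  match Nat.beq (Nat.shiftRight m 4) 0 with
  | true => hb2 m acc
  | false => hb2 (Nat.shiftRight m 4) (Nat.add acc 4)
/-- Highest bit search, used only as a hint. -/
def hb8 (m acc : Nat) : Nat :=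
  match Nat.beq (Nat.shiftRight m 8) 0 with
  | true => hb4 m acc
  | false => hb4 (Nat.shiftRight m 8) (Nat.add acc 8)
/-- Highest bit search, used only as a hint. -/
def hb16 (m acc : Nat) : Nat :=
  match Nat.beq (Nat.shiftRight m 16) 0 with
  | true => hb8 m acc
  | false => hb8 (Nat.shiftRight m 16) (Nat.add acc 16)
/-- Highest bit search, used only as a hint. -/
def hb32 (m acc : Nat) : Nat :=
  match Nat.beq (Nat.shiftRight m 32) 0 with
  | true => hb16 m acc
  | false => hb16 (Nat.shiftRight m 32) (Nat.add acc 32)
/-- Highest bit search, used only as a hint. -/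
def hb64 (m acc : Nat) : Nat :=
  match Nat.beq (Nat.shiftRight m 64) 0 with
  | true => hb32 m acc
  | false => hb32 (Nat.shiftRight m 64) (Nat.add acc 64)
/-- Highest bit search, used only as a hint. -/
def hb128 (m acc : Nat) : Nat :=
  match Nat.beq (Nat.shiftRight m 128) 0 with
  | true => hb64 m acc
  | false => hb64 (Nat.shiftRight m 128) (Nat.add acc 128)
/-- Highest bit search, used only as a hint. -/
def hb (m : Nat) : Nat :=
  match Nat.beq (Nat.shiftRight m 256) 0 with
  | true => hb128 m 0
  | false => hb128 (Nat.shiftRight m 256) 256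

/-- `cf f k m = true` certifies that the set of bits of `m` holds no clique of size `k`. -/
def cf : Nat → Nat → Nat → Bool
  | 0, _, m => Nat.beq m 0
  | f + 1, k, m =>
    match Nat.beq m 0 with
    | true => true
    | false =>
    match k with
    | 0 => false
    | 1 => false
    | k' + 2 =>
      let y := hb m
      let m' := Nat.xor m (Nat.pow 2 y)
      and (tb m y) (and (cf f (k' + 1) (Nat.land m' (row y))) (cf f (k' + 2) m'))

/-- The mask of the 320 vertices `96, ..., 415`. -/
def maskX : Nat := Nat.sub (Nat.pow 2 416) (Nat.pow 2 96)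

/-- Equality of Booleans. -/
def eqB : Bool → Bool → Bool
  | true, true => true
  | false, false => true
  | _, _ => false

/-- Conjunction over `a + i`, `i < n`. -/
def allFrom (a : Nat) (p : Nat → Bool) : Nat → Bool
  | 0 => true
  | n + 1 => and (p (Nat.add a n)) (allFrom a p n)

/-- Row check for symmetry. -/
def symRow (x : Nat) : Bool := allBelow 416 (fun y => eqB (tb (row x) y) (tb (row y) x))

/-- No `K5` among the vertices of `X` below `y` adjacent to `y`. -/
def noK5Below (y : Nat) : Bool :=
  cf 416 5 (Nat.land (Nat.land maskX (Nat.sub (Nat.pow 2 y) 1)) (row y))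

/-- Number of `i < n` such that `a + i` is adjacent to `z`. -/
def cnt (z a : Nat) : Nat → Nat
  | 0 => 0
  | n + 1 => Nat.add (cnt z a n) (match tb (row (Nat.add a n)) z with
      | true => 1
      | false => 0)

/-- Expected number of neighbours of `z` in the orbit `[a, a + 32)`. -/
def expCnt (z a : Nat) : Nat :=
  match Nat.ble 96 z with
  | true => 8
  | false =>
    match and (Nat.ble a z) (Nat.ble (Nat.add z 1) (Nat.add a 32)) with
    | true => 20
    | false => 0

end Vale.Agent.Lib.P052
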