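import Vale.Agent.Lib.P052.Geom

/-!
The subspace `L` of dimension 63 containing the vectors of the vertices `96, ..., 415` and the
vector `w = vec 0 - f1 - f2`.
-/

namespace Vale.Agent.Lib.P052

open Finset Matrix WithLp Module

/-- The idempotent matrix. -/
noncomputable def M96 : Matrix V V ℝ := (1 / 96 : ℝ) • N

/-- The orthogonal projection onto the eigenspace, as a linear map. -/
noncomputable def T : E416 →ₗ[ℝ] E416 := Matrix.toLpLin 2 2 M96

theorem T_apply (v : E416) : T v = toLp 2 (M96 *ᵥ ofLp v) := by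
  unfold T
  exact Matrix.toLpLin_apply _ _ _ _

theorem M96_sq : M96 * M96 = M96 := by
  unfold M96
  rw [smul_mul_assoc, mul_smul_comm, N_sq, smul_smul, smul_smul]
  norm_num

theorem T_idem : IsIdempotentElem T := by
  unfold IsIdempotentElem
  ext1 v
  change T (T v) = T v
  simp only [T_apply]
  rw [Matrix.mulVec_mulVec, M96_sq]

theorem trace_T : LinearMap.trace ℝ E416 T = 65 := by
  have h : T = Matrix.toLin (PiLp.basisFun 2 ℝ V) (PiLp.basisFun 2 ℝ V) M96 := by
    unfold T
    rw [Matrix.toLpLin_eq_toLin]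
  rw [h, Matrix.trace_toLin_eq]
  unfold M96 Matrix.trace
  simp only [Matrix.diag_apply, Matrix.smul_apply, smul_eq_mul, N_self]
  simp
  norm_num

theorem finrank_range_T : finrank ℝ (LinearMap.range T) = 65 := by
  have hp := LinearMap.IsIdempotentElem.isProj_range T T_idem
  have h := hp.trace
  rw [trace_T] at h
  have h2 : ((65 : ℕ) : ℝ) = ((finrank ℝ (LinearMap.range T) : ℕ) : ℝ) := by
    push_cast; exact h
  exact (Nat.cast_injective h2).symm

theorem T_f {a b : ℕ} (ha : a = 0 ∨ a = 32 ∨ a = 64) (hb : b = 0 ∨ b = 32 ∨ b = 64) :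
    T (toLp 2 (fun y => ind a y - ind b y)) = toLp 2 (fun y => ind a y - ind b y) := by
  rw [T_apply]
  congr 1
  unfold M96
  rw [Matrix.smul_mulVec]
  ext y
  simp only [Pi.smul_apply, smul_eq_mul]
  rw [N_mulVec_ind_sub ha hb y]
  ring

theorem vec_mem_range (x : V) : vec x ∈ LinearMap.range T := by
  refine ⟨toLp 2 (fun y => if y = x then (96 : ℝ) else 0), ?_⟩
  rw [T_apply]
  unfold vec
  congr 1
  ext y
  unfold M96
  rw [Matrix.smul_mulVec]
  simp only [Pi.smul_apply, smul_eq_mul]
  rw [Matrix.mulVec, dotProduct]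
  simp
  ring

theorem f1_mem_range : f1 ∈ LinearMap.range T := ⟨f1, T_f (Or.inl rfl) (Or.inr (Or.inl rfl))⟩

theorem f2_mem_range : f2 ∈ LinearMap.range T := ⟨f2, T_f (Or.inl rfl) (Or.inr (Or.inr rfl))⟩

theorem f1_apply (y : V) : f1 y = ind 0 y - ind 32 y := by
  simp [f1]

theorem f2_apply (y : V) : f2 y = ind 0 y - ind 64 y := by
  simp [f2]

theorem lin_indep_f : LinearIndependent ℝ ![f1, f2] := by
  rw [LinearIndependent.pair_iff]
  intro s t h
  have h1 := congrArg (fun v : E416 => v (32 : V)) h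
  have h2 := congrArg (fun v : E416 => v (64 : V)) h
  simp only [PiLp.add_apply, PiLp.smul_apply, f1_apply, f2_apply, smul_eq_mul] at h1 h2
  have e1 : ind 0 (32 : V) = 0 := by norm_num [ind]
  have e2 : ind 32 (32 : V) = 1 := by norm_num [ind]
  have e3 : ind 64 (32 : V) = 0 := by norm_num [ind]
  have e4 : ind 0 (64 : V) = 0 := by norm_num [ind]
  have e5 : ind 32 (64 : V) = 0 := by norm_num [ind]
  have e6 : ind 64 (64 : V) = 1 := by norm_num [ind]
  rw [e1, e2, e3] at h1
  rw [e4, e5, e6] at h2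
  simp at h1 h2
  exact ⟨h1, h2⟩

/-- The span of `f1` and `f2`. -/
noncomputable def K1 : Submodule ℝ E416 := Submodule.span ℝ (Set.range ![f1, f2])

theorem finrank_K1 : finrank ℝ K1 = 2 := by
  unfold K1
  rw [finrank_span_eq_card lin_indep_f]
  simp

theorem K1_le : K1 ≤ LinearMap.range T := by
  unfold K1
  rw [Submodule.span_le]
  rintro _ ⟨i, rfl⟩
  fin_cases i
  · exact f1_mem_range
  · exact f2_mem_range

/-- The 63 dimensional subspace. -/
noncomputable def L : Submodule ℝ E416 := K1ᗮ ⊓ LinearMap.range T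

theorem finrank_L : finrank ℝ L = 63 := by
  have h := Submodule.finrank_add_inf_finrank_orthogonal K1_le
  rw [finrank_K1, finrank_range_T] at h
  unfold L
  omega

theorem mem_K1_orth {v : E416} (h1 : inner ℝ f1 v = 0) (h2 : inner ℝ f2 v = 0) : v ∈ K1ᗮ := by
  rw [Submodule.mem_orthogonal]
  intro u hu
  unfold K1 at hu
  induction hu using Submodule.span_induction with
  | mem x hx =>
    obtain ⟨i, rfl⟩ := hx
    fin_cases i
    · exact h1
    · exact h2
  | zero => simp
  | add x y _ _ hx hy => rw [inner_add_left, hx, hy, add_zero]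
  | smul c x _ hx => rw [inner_smul_left, hx, mul_zero]

theorem ind_of_ge {a : ℕ} (ha : a + 32 ≤ 96) {x : V} (hx : 96 ≤ (x : ℕ)) : ind a x = 0 := by
  unfold ind
  rw [if_neg]
  omega

theorem inner_f1_vec {x : V} (hx : 96 ≤ (x : ℕ)) : inner ℝ f1 (vec x) = 0 := by
  rw [real_inner_comm]
  have := inner_vec_f (a := 0) (b := 32) (Or.inl rfl) (Or.inr (Or.inl rfl)) x
  rw [ind_of_ge (by norm_num) hx, ind_of_ge (by norm_num) hx] at this
  simpa [f1] using this

theorem inner_f2_vec {x : V} (hx : 96 ≤ (x : ℕ)) : inner ℝ f2 (vec x) = 0 := by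
  rw [real_inner_comm]
  have := inner_vec_f (a := 0) (b := 64) (Or.inl rfl) (Or.inr (Or.inr rfl)) x
  rw [ind_of_ge (by norm_num) hx, ind_of_ge (by norm_num) hx] at this
  simpa [f2] using this

theorem vec_mem_L {x : V} (hx : 96 ≤ (x : ℕ)) : vec x ∈ L :=
  ⟨mem_K1_orth (inner_f1_vec hx) (inner_f2_vec hx), vec_mem_range x⟩

theorem inner_f_f {a b c d : ℕ} (ha : a + 32 ≤ 416) (h1 : a + 32 ≤ d ∨ d + 32 ≤ a) (h2 : b + 32 ≤ c ∨ c + 32 ≤ b)
    (h3 : b + 32 ≤ d ∨ d + 32 ≤ b) (hac : a = c) :
    inner ℝ (toLp 2 (fun y => ind a y - ind b y) : E416) (toLp 2 (fun y => ind c y - ind d y))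
      = 32 := by
  subst hac
  rw [inner_toLp']
  have e : ∀ y : V, (ind a y - ind b y) * (ind a y - ind d y) = ind a y := by
    intro y
    have e1 := ind_sq a y
    have e2 := ind_mul_ind (a := a) (b := d) y h1
    have e3 := ind_mul_ind (a := b) (b := a) y h2
    have e4 := ind_mul_ind (a := b) (b := d) y h3
    have : (ind a y - ind b y) * (ind a y - ind d y)
        = ind a y * ind a y - ind a y * ind d y - ind b y * ind a y + ind b y * ind d y := by ring
    rw [this, e1, e2, e3, e4]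
    ring
  simp only [e]
  exact sum_ind ha

theorem inner_f1_f1 : inner ℝ f1 f1 = 64 := by
  unfold f1
  rw [inner_toLp']
  have e : ∀ y : V, (ind 0 y - ind 32 y) * (ind 0 y - ind 32 y) = ind 0 y + ind 32 y := by
    intro y
    have e1 := ind_sq 0 y
    have e2 := ind_sq 32 y
    have e3 := ind_mul_ind (a := 0) (b := 32) y (Or.inl (by norm_num))
    have : (ind 0 y - ind 32 y) * (ind 0 y - ind 32 y)
        = ind 0 y * ind 0 y + ind 32 y * ind 32 y - 2 * (ind 0 y * ind 32 y) := by ring
    rw [this, e1, e2, e3]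
    ring
  simp only [e]
  rw [sum_add_distrib, sum_ind (by norm_num), sum_ind (by norm_num)]
  norm_num

theorem inner_f2_f2 : inner ℝ f2 f2 = 64 := by
  unfold f2
  rw [inner_toLp']
  have e : ∀ y : V, (ind 0 y - ind 64 y) * (ind 0 y - ind 64 y) = ind 0 y + ind 64 y := by
    intro y
    have e1 := ind_sq 0 y
    have e2 := ind_sq 64 y
    have e3 := ind_mul_ind (a := 0) (b := 64) y (Or.inl (by norm_num))
    have : (ind 0 y - ind 64 y) * (ind 0 y - ind 64 y)
        = ind 0 y * ind 0 y + ind 64 y * ind 64 y - 2 * (ind 0 y * ind 64 y) := by ring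
    rw [this, e1, e2, e3]
    ring
  simp only [e]
  rw [sum_add_distrib, sum_ind (by norm_num), sum_ind (by norm_num)]
  norm_num

theorem inner_f1_f2 : inner ℝ f1 f2 = 32 := by
  unfold f1 f2
  exact inner_f_f (by norm_num)
    (Or.inl (by norm_num)) (Or.inr (by norm_num)) (Or.inl (by norm_num)) rfl

theorem ind0_zero : ind 0 (0 : V) = 1 := by norm_num [ind]
theorem ind32_zero : ind 32 (0 : V) = 0 := by norm_num [ind]
theorem ind64_zero : ind 64 (0 : V) = 0 := by norm_num [ind]

theorem inner_vec0_f1 : inner ℝ (vec 0) f1 = 96 := by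
  have := inner_vec_f (a := 0) (b := 32) (Or.inl rfl) (Or.inr (Or.inl rfl)) (0 : V)
  rw [ind0_zero, ind32_zero] at this
  simpa [f1] using this

theorem inner_vec0_f2 : inner ℝ (vec 0) f2 = 96 := by
  have := inner_vec_f (a := 0) (b := 64) (Or.inl rfl) (Or.inr (Or.inr rfl)) (0 : V)
  rw [ind0_zero, ind64_zero] at this
  simpa [f2] using this

/-- The extra vector. -/
noncomputable def w : E416 := vec 0 - f1 - f2

theorem w_mem_L : w ∈ L := by
  refine ⟨mem_K1_orth ?_ ?_, ?_⟩
  · unfold w
    rw [inner_sub_right, inner_sub_right, real_inner_comm, inner_vec0_f1, inner_f1_f1, inner_f1_f2]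
    norm_num
  · unfold w
    rw [inner_sub_right, inner_sub_right, real_inner_comm, inner_vec0_f2, inner_f2_f2,
      real_inner_comm, inner_f1_f2]
    norm_num
  · unfold w
    exact Submodule.sub_mem _ (Submodule.sub_mem _ (vec_mem_range 0) f1_mem_range) f2_mem_range

theorem inner_w_w : inner ℝ w w = 1248 := by
  unfold w
  simp only [inner_sub_left, inner_sub_right]
  rw [inner_vec, N_self, inner_f1_f1, inner_f2_f2, inner_f1_f2, real_inner_comm (vec 0) f1,
    real_inner_comm (vec 0) f2, real_inner_comm f1 f2, inner_vec0_f1, inner_vec0_f2, inner_f1_f2]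
  norm_num

theorem inner_w_vec {x : V} (hx : 96 ≤ (x : ℕ)) : inner ℝ w (vec x) = 96 * N 0 x := by
  unfold w
  rw [inner_sub_left, inner_sub_left, inner_f1_vec hx, inner_f2_vec hx, inner_vec]
  ring

end Vale.Agent.Lib.P052
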