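import Vale.Agent.Lib.P052.Spec

/-!
The matrix identities for the graph and the resulting vectors in `EuclideanSpace ℝ (Fin 416)`.
-/

namespace Vale.Agent.Lib.P052

open Finset Matrix WithLp

/-- The vertex set. -/
abbrev V := Fin 416

/-- The ambient Euclidean space. -/
abbrev E416 := EuclideanSpace ℝ V

/-- Adjacency matrix. -/
noncomputable def A : Matrix V V ℝ := Matrix.of fun x y => (a' x y : ℝ)

/-- The all ones matrix. -/
noncomputable def J : Matrix V V ℝ := Matrix.of fun _ _ => 1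

/-- The matrix `96 E`, where `E` is the idempotent of the eigenvalue `20`. -/
noncomputable def N : Matrix V V ℝ := (4 : ℝ) • A + (16 : ℝ) • (1 : Matrix V V ℝ) - J

theorem sum_fin (f : ℕ → ℝ) : ∑ y : V, f y = ∑ y ∈ range 416, f y :=
  Fin.sum_univ_eq_sum_range f 416

theorem c'_real (x z : V) : (A * A) x z = (c' x z : ℝ) := by
  rw [Matrix.mul_apply]
  simp only [A, Matrix.of_apply]
  unfold c'
  push_cast
  exact sum_fin (fun y => (a' x y : ℝ) * (a' y z : ℝ))

theorem A_sq : A * A = (100 : ℝ) • (1 : Matrix V V ℝ) + (36 : ℝ) • A + (20 : ℝ) • (J - 1 - A) := by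
  ext x z
  rw [c'_real, c'_eq x.isLt z.isLt]
  simp only [Matrix.add_apply, Matrix.smul_apply, Matrix.sub_apply, Matrix.one_apply, A, J,
    Matrix.of_apply, smul_eq_mul]
  by_cases h : x = z
  · subst h
    have : a' x x = 0 := a'_self x.isLt
    simp [this]
  · have h' : (z : ℕ) ≠ x := fun e => h (Fin.ext e.symm)
    have h'' : z ≠ x := fun e => h e.symm
    simp only [h', if_false, h, Nat.cast_ite]
    unfold a'
    split_ifs <;> norm_num

theorem deg (x : V) : ∑ y : V, (a' x y : ℝ) = 100 := by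
  have h := c'_eq x.isLt x.isLt
  simp only [if_true] at h
  have h2 : (c' x x : ℝ) = 100 := by rw [h]; norm_num
  rw [← h2]
  unfold c'
  push_cast
  rw [sum_fin (fun y => (a' x y : ℝ))]
  refine sum_congr rfl fun y hy => ?_
  have hy' : y < 416 := mem_range.mp hy
  rw [a'_symm hy' x.isLt]
  unfold a'
  split_ifs <;> simp

theorem A_J : A * J = (100 : ℝ) • J := by
  ext x z
  rw [Matrix.mul_apply]
  simp only [A, J, Matrix.of_apply, mul_one, Matrix.smul_apply, smul_eq_mul]
  exact deg x

theorem J_A : J * A = (100 : ℝ) • J := by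
  ext x z
  rw [Matrix.mul_apply]
  simp only [A, J, Matrix.of_apply, one_mul, Matrix.smul_apply, smul_eq_mul, mul_one]
  rw [← deg z]
  refine sum_congr rfl fun y _ => ?_
  rw [a'_symm y.isLt z.isLt]

theorem J_J : J * J = (416 : ℝ) • J := by
  ext x z
  rw [Matrix.mul_apply]
  simp [J]

theorem N_sq : N * N = (96 : ℝ) • N := by
  unfold N
  simp only [sub_mul, add_mul, mul_sub, mul_add, smul_mul_assoc, mul_smul_comm, A_sq, A_J, J_A, J_J,
    mul_one, one_mul]
  module

theorem N_apply (x y : V) : N x y = 4 * (a' x y : ℝ) + 16 * (if x = y then 1 else 0) - 1 := by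
  simp [N, A, J, Matrix.one_apply]

theorem N_symm (x y : V) : N x y = N y x := by
  rw [N_apply, N_apply, a'_symm x.isLt y.isLt]
  by_cases h : x = y
  · subst h; rfl
  · have h' : y ≠ x := fun e => h e.symm
    simp [h, h']

/-- Adjacency on vertices. -/
def Adj (x y : V) : Prop := tb (row x) y = true

theorem a'_of_adj {x y : V} (h : Adj x y) : a' x y = 1 := by
  unfold a'; exact if_pos h

theorem a'_of_not_adj {x y : V} (h : ¬ Adj x y) : a' x y = 0 := by
  unfold a'; exact if_neg h

theorem N_self (x : V) : N x x = 15 := by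
  rw [N_apply, a'_self x.isLt]
  norm_num

theorem N_adj {x y : V} (h : Adj x y) (hne : x ≠ y) : N x y = 3 := by
  rw [N_apply, a'_of_adj h]
  simp [hne]
  norm_num

theorem N_not_adj {x y : V} (h : ¬ Adj x y) (hne : x ≠ y) : N x y = -1 := by
  rw [N_apply, a'_of_not_adj h]
  simp [hne]

theorem Adj_symm {x y : V} (h : Adj x y) : Adj y x := by
  unfold Adj at *
  rw [← adj_symm x.isLt y.isLt]
  exact h

/-- The vector of a vertex. -/
noncomputable def vec (x : V) : E416 := toLp 2 (fun y => N y x)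

theorem inner_toLp' (f g : V → ℝ) :
    inner ℝ (toLp 2 f : E416) (toLp 2 g : E416) = ∑ i, f i * g i := by
  rw [EuclideanSpace.inner_toLp_toLp]
  simp [dotProduct, mul_comm]

theorem inner_vec (x z : V) : inner ℝ (vec x) (vec z) = 96 * N x z := by
  unfold vec
  rw [inner_toLp']
  have h := congrFun (congrFun N_sq x) z
  rw [Matrix.mul_apply] at h
  simp only [Matrix.smul_apply, smul_eq_mul] at h
  rw [← h]
  refine sum_congr rfl fun y _ => ?_
  rw [N_symm y x]

/-- Indicator of the orbit `[a, a + 32)`. -/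
noncomputable def ind (a : ℕ) : V → ℝ := fun y => if a ≤ (y : ℕ) ∧ (y : ℕ) < a + 32 then 1 else 0

theorem sum_ind_range (a : ℕ) (ha : a + 32 ≤ 416) (g : ℕ → ℝ) :
    ∑ y : V, ind a y * g y = ∑ i ∈ range 32, g (a + i) := by
  have h1 : ∑ y : V, ind a y * g y
      = ∑ y ∈ range 416, (if a ≤ y ∧ y < a + 32 then 1 else 0) * g y := by
    exact sum_fin (fun y => (if a ≤ y ∧ y < a + 32 then 1 else 0) * g y)
  rw [h1]
  simp only [ite_mul, one_mul, zero_mul]
  rw [← sum_filter]
  have h2 : (range 416).filter (fun y => a ≤ y ∧ y < a + 32) = (range 32).image (fun i => a + i) := by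
    ext y
    simp only [mem_filter, mem_range, mem_image]
    constructor
    · rintro ⟨_, h3, h4⟩
      exact ⟨y - a, by omega, by omega⟩
    · rintro ⟨i, hi, rfl⟩
      omega
  rw [h2, sum_image]
  intro i _ j _ hij
  simpa using hij

/-- The neighbour count in an orbit. -/
theorem A_ind {a : ℕ} (ha : a = 0 ∨ a = 32 ∨ a = 64) (z : V) :
    (A *ᵥ ind a) z = (expCnt z a : ℝ) := by
  rw [Matrix.mulVec, dotProduct]
  simp only [A, Matrix.of_apply]
  have ha' : a + 32 ≤ 416 := by omega
  have h1 : ∑ y : V, (a' z y : ℝ) * ind a y = ∑ y : V, ind a y * (a' y z : ℝ) := by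
    refine sum_congr rfl fun y _ => ?_
    rw [a'_symm z.isLt y.isLt, mul_comm]
  rw [h1, sum_ind_range a ha' (fun y => (a' y z : ℝ))]
  rw [← orb_eq z.isLt ha]
  push_cast
  rfl

/-- First function. -/
noncomputable def f1 : E416 := toLp 2 (fun y => ind 0 y - ind 32 y)

/-- Second function. -/
noncomputable def f2 : E416 := toLp 2 (fun y => ind 0 y - ind 64 y)

theorem sum_ind {a : ℕ} (ha : a + 32 ≤ 416) : ∑ y : V, ind a y = 32 := by
  have := sum_ind_range a ha (fun _ => 1)
  simpa using this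

theorem ind_mul_ind {a b : ℕ} (y : V) (h : a + 32 ≤ b ∨ b + 32 ≤ a) :
    ind a y * ind b y = 0 := by
  unfold ind
  split_ifs <;> simp <;> omega

theorem ind_sq (a : ℕ) (y : V) : ind a y * ind a y = ind a y := by
  unfold ind
  split_ifs <;> simp

theorem N_mulVec_ind_sub {a b : ℕ} (ha : a = 0 ∨ a = 32 ∨ a = 64) (hb : b = 0 ∨ b = 32 ∨ b = 64)
    (y : V) : (N *ᵥ (fun y => ind a y - ind b y)) y = 96 * (ind a y - ind b y) := by
  have h1 : (A *ᵥ (fun y => ind a y - ind b y)) y = (expCnt y a : ℝ) - (expCnt y b : ℝ) := by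
    rw [← A_ind ha y, ← A_ind hb y]
    have : (fun y => ind a y - ind b y) = ind a - ind b := rfl
    rw [this, Matrix.mulVec_sub]
    rfl
  have h2 : (J *ᵥ (fun y => ind a y - ind b y)) y = 0 := by
    rw [Matrix.mulVec, dotProduct]
    simp only [J, Matrix.of_apply, one_mul]
    rw [sum_sub_distrib, sum_ind (by omega), sum_ind (by omega)]
    norm_num
  have h3 : (N *ᵥ (fun y => ind a y - ind b y)) y
      = 4 * (A *ᵥ (fun y => ind a y - ind b y)) y + 16 * (ind a y - ind b y)
        - (J *ᵥ (fun y => ind a y - ind b y)) y := by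
    unfold N
    rw [Matrix.sub_mulVec, Matrix.add_mulVec, Matrix.smul_mulVec, Matrix.smul_mulVec,
      Matrix.one_mulVec]
    rfl
  rw [h3, h1, h2, expCnt_eq, expCnt_eq]
  unfold ind
  have hy := y.isLt
  by_cases h96 : 96 ≤ (y : ℕ)
  · have e1 : ¬ (a ≤ (y : ℕ) ∧ (y : ℕ) < a + 32) := by
      rcases ha with rfl | rfl | rfl <;> omega
    have e2 : ¬ (b ≤ (y : ℕ) ∧ (y : ℕ) < b + 32) := by
      rcases hb with rfl | rfl | rfl <;> omega
    simp [h96, e1, e2]
  · simp only [h96, if_false]
    split_ifs <;> push_cast <;> norm_num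

theorem inner_vec_f {a b : ℕ} (ha : a = 0 ∨ a = 32 ∨ a = 64) (hb : b = 0 ∨ b = 32 ∨ b = 64)
    (x : V) : inner ℝ (vec x) (toLp 2 (fun y => ind a y - ind b y) : E416)
      = 96 * (ind a x - ind b x) := by
  rw [← N_mulVec_ind_sub ha hb x]
  unfold vec
  rw [inner_toLp']
  rw [Matrix.mulVec, dotProduct]
  refine sum_congr rfl fun y _ => ?_
  rw [N_symm y x]

end Vale.Agent.Lib.P052
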