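import Mathlib
import Vale.Agent.Lib.P052.Kern

namespace Vale.Agent.Lib.P052

theorem allLt_succ (n : Nat) (f : Nat → Bool) :
    allLt (n + 1) f = and (allLt n f) (f n) := rfl

theorem allLt_spec : ∀ (n : Nat) (f : Nat → Bool), allLt n f = true → ∀ i, i < n → f i = true := by
  intro n f
  induction n with
  | zero => intro _ i hi; exact absurd hi (Nat.not_lt_zero i)
  | succ n ih =>
    intro h i hi
    rw [allLt_succ, Bool.and_eq_true] at h
    rcases Nat.lt_succ_iff_lt_or_eq.mp hi with hi | rfl
    · exact ih h.1 i hi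
    · exact h.2

theorem allIn_spec (lo hi : Nat) (f : Nat → Bool) (h : allIn lo hi f = true) :
    ∀ i, lo ≤ i → i < hi → f i = true := by
  intro i h1 h2
  have := allLt_spec (hi - lo) (fun k => f (lo + k)) h (i - lo) (by omega)
  rwa [Nat.add_sub_cancel' h1] at this

theorem pk_zero (a : Nat → Nat) : pk a 0 = 0 := rfl
theorem pk_succ (a : Nat → Nat) (n : Nat) : pk a (n + 1) = pk a n + a n * 65536 ^ n := rfl
theorem qk_zero (a : Nat → Nat) : qk a 0 = 0 := rfl
theorem qk_succ (a : Nat → Nat) (n : Nat) : qk a (n + 1) = 65536 * qk a n + a n := rfl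

theorem forallBits_zero (g : Nat → Bool) (r : Nat) :
    forallBits g 0 r = Nat.beq r 0 := rfl

theorem forallBits_succ_succ (g : Nat → Bool) (fuel c : Nat) :
    forallBits g (fuel + 1) (c + 1) =
      and (g (dec (c + 1) - (dec (c + 1) &&& (dec (c + 1) - 1))))
        (forallBits g fuel (enc (dec (c + 1) &&& (dec (c + 1) - 1)))) := rfl

theorem dec_enc (x : Nat) : dec (enc x) = x := by
  unfold dec enc
  rw [Nat.shiftRight_eq_div_pow]
  have h : x % 4294967291 < 4294967291 := Nat.mod_lt _ (by norm_num)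
  have h2 : (2 : Nat) ^ 32 = 4294967296 := by norm_num
  rw [h2]
  omega

theorem enc_eq_zero {x : Nat} (h : enc x = 0) : x = 0 := by
  have h1 : x * 4294967296 = 0 := (Nat.add_eq_zero_iff.mp h).1
  exact (Nat.mul_eq_zero.mp h1).resolve_right (by norm_num)

theorem tb_even_succ (x i : Nat) : (2 * x).testBit (i + 1) = x.testBit i := by
  rw [Nat.testBit_succ]
  congr 1
  omega

theorem tb_odd_succ (x i : Nat) : (2 * x + 1).testBit (i + 1) = x.testBit i := by
  rw [Nat.testBit_succ]
  congr 1
  omega

theorem tb_even_zero (x : Nat) : (2 * x).testBit 0 = false := by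
  simp [Nat.testBit_zero]

theorem tb_odd_zero (x : Nat) : (2 * x + 1).testBit 0 = true := by
  simp [Nat.testBit_zero]

/-- `n &&& (n - 1)` clears exactly the lowest set bit of `n` -/
theorem lowbit_spec : ∀ n : Nat, n ≠ 0 → ∃ t, n - (n &&& (n - 1)) = 2 ^ t ∧ n.testBit t = true ∧
    ∀ v, v ≠ t → (n &&& (n - 1)).testBit v = n.testBit v := by
  intro n
  induction n using Nat.strong_induction_on with
  | _ n ih =>
    intro hn
    rcases Nat.even_or_odd' n with ⟨k, hk | hk⟩
    · subst hk
      have hk0 : k ≠ 0 := by omega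
      obtain ⟨t, ht1, ht2, ht3⟩ := ih k (by omega) hk0
      obtain ⟨q, rfl⟩ : ∃ q, k = q + 1 := ⟨k - 1, by omega⟩
      have hn1 : 2 * (q + 1) - 1 = 2 * q + 1 := by omega
      have hk1 : q + 1 - 1 = q := by omega
      rw [hk1] at ht1 ht3
      have hland : (2 * (q + 1)) &&& (2 * (q + 1) - 1) = 2 * ((q + 1) &&& q) := by
        apply Nat.eq_of_testBit_eq
        intro i
        rw [hn1, Nat.testBit_land]
        cases i with
        | zero => rw [tb_even_zero, tb_even_zero, Bool.false_and]
        | succ i => rw [tb_even_succ, tb_odd_succ, tb_even_succ, Nat.testBit_land]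
      refine ⟨t + 1, ?_, ?_, ?_⟩
      · rw [hland, pow_succ]
        have hle : ((q + 1) &&& q) ≤ q + 1 := Nat.and_le_left
        omega
      · rw [tb_even_succ]; exact ht2
      · intro v hv
        rw [hland]
        cases v with
        | zero => rw [tb_even_zero, tb_even_zero]
        | succ v =>
          have hv' : v ≠ t := by omega
          rw [tb_even_succ, tb_even_succ]
          exact ht3 v hv'
    · subst hk
      have hland : (2 * k + 1) &&& (2 * k + 1 - 1) = 2 * k := by
        apply Nat.eq_of_testBit_eq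
        intro i
        have hn1 : 2 * k + 1 - 1 = 2 * k := by omega
        rw [hn1, Nat.testBit_land]
        cases i with
        | zero => rw [tb_odd_zero, tb_even_zero, Bool.and_false]
        | succ i => rw [tb_odd_succ, tb_even_succ, Bool.and_self]
      refine ⟨0, ?_, tb_odd_zero k, ?_⟩
      · rw [hland]; omega
      · intro v hv
        obtain ⟨w, rfl⟩ : ∃ w, v = w + 1 := ⟨v - 1, by omega⟩
        rw [hland, tb_even_succ, tb_odd_succ]

theorem forallBits_sound (g : Nat → Bool) :
    ∀ (fuel x : Nat), forallBits g fuel (enc x) = true →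
      ∀ v, x.testBit v = true → g (2 ^ v) = true := by
  intro fuel
  induction fuel with
  | zero =>
    intro x h v hv
    rw [forallBits_zero] at h
    have : x = 0 := enc_eq_zero (Nat.eq_of_beq_eq_true h)
    subst this
    simp at hv
  | succ fuel ih =>
    intro x h v hv
    have hx : x ≠ 0 := by
      rintro rfl
      simp at hv
    have hpos : enc x ≠ 0 := fun h0 => hx (enc_eq_zero h0)
    obtain ⟨c, hc⟩ : ∃ c, enc x = c + 1 := ⟨enc x - 1, by omega⟩
    have hdec : dec (c + 1) = x := by rw [← hc, dec_enc]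
    rw [hc, forallBits_succ_succ, hdec, Bool.and_eq_true] at h
    obtain ⟨t, ht1, ht2, ht3⟩ := lowbit_spec x hx
    by_cases hvt : v = t
    · rw [hvt, ← ht1]; exact h.1
    · exact ih _ h.2 v (by rw [ht3 v hvt]; exact hv)

theorem noK_zero (mR : Nat → Nat) (p w r : Nat) : noK mR p w 0 r = false := rfl
theorem noK_one (mR : Nat → Nat) (p w r : Nat) : noK mR p w 1 r = Nat.beq r 0 := rfl
theorem noK_succ_succ (mR : Nat → Nat) (p w j r : Nat) :
    noK mR p w (j + 2) r =
      forallBits (fun b => noK mR p w (j + 1) (enc (dec r &&& mR (b % p)))) w r := rfl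

/-- if the check passes there is no list of `k` vertices in `x`, pairwise adjacent -/
theorem noK_sound (mR : Nat → Nat) (p w : Nat) :
    ∀ (k x : Nat), noK mR p w k (enc x) = true → ∀ l : List Nat, l.length = k →
      (∀ y ∈ l, x.testBit y = true) →
      l.Pairwise (fun a b => (mR (2 ^ a % p)).testBit b = true) → False := by
  intro k
  induction k with
  | zero =>
    intro x h
    rw [noK_zero] at h
    exact absurd h Bool.false_ne_true
  | succ k ih =>
    intro x h l hl hx hpw
    cases k with
    | zero =>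
      rw [noK_one] at h
      have h0 : x = 0 := enc_eq_zero (Nat.eq_of_beq_eq_true h)
      subst h0
      cases l with
      | nil => simp at hl
      | cons y t =>
        have := hx y (by simp)
        simp at this
    | succ j =>
      rw [noK_succ_succ] at h
      cases l with
      | nil => simp at hl
      | cons v t =>
        have hv := hx v (by simp)
        have h2 := forallBits_sound _ _ _ h v hv
        have hlt : t.length = j + 1 := by simpa using hl
        rw [List.pairwise_cons] at hpw
        simp only [dec_enc] at h2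
        refine ih (x &&& mR (2 ^ v % p)) h2 t hlt ?_ hpw.2
        intro y hy
        rw [Nat.testBit_land, Bool.and_eq_true]
        exact ⟨hx y (List.mem_cons_of_mem _ hy), hpw.1 y hy⟩

/-- digit extraction for the packed dot product: main induction -/
theorem pk_mul_le (a : Nat → Nat) (A : Nat) (n : Nat) (ha : ∀ k < n, a k ≤ A) :
    pk a n * 65536 ≤ 2 * A * 65536 ^ n := by
  induction n with
  | zero => simp [pk_zero]
  | succ n ih =>
    have h1 := ih (fun k hk => ha k (Nat.lt_succ_of_lt hk))
    have h2 := ha n (Nat.lt_succ_self n)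
    rw [pk_succ, pow_succ]
    have h3 : a n * 65536 ^ n ≤ A * 65536 ^ n := Nat.mul_le_mul_right _ h2
    nlinarith [Nat.zero_le (A * 65536 ^ n)]

theorem dot_main (a b : Nat → Nat) (A : Nat) (n : Nat)
    (ha : ∀ k < n, a k ≤ A) (hb : ∀ k < n, b k ≤ A) :
    ∃ L H, pk a n * qk b n * 65536 =
        L + (∑ k ∈ Finset.range n, a k * b k) * 65536 ^ n + H * 65536 ^ (n + 1) ∧
      L * 65536 ≤ 2 * A * A * n * 65536 ^ n := by
  induction n with
  | zero => exact ⟨0, 0, by simp [pk_zero], by simp⟩
  | succ n ih =>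
    obtain ⟨L, H, hEq, hL⟩ := ih (fun k hk => ha k (Nat.lt_succ_of_lt hk))
      (fun k hk => hb k (Nat.lt_succ_of_lt hk))
    have hP := pk_mul_le a A n (fun k hk => ha k (Nat.lt_succ_of_lt hk))
    have hbn := hb n (Nat.lt_succ_self n)
    refine ⟨65536 * (L + b n * pk a n), H + a n * qk b n, ?_, ?_⟩
    · rw [pk_succ, qk_succ, Finset.sum_range_succ]
      have hB : (65536 : ℕ) ^ (n + 1 + 1) = 65536 ^ (n + 1) * 65536 := pow_succ _ _
      have hB' : (65536 : ℕ) ^ (n + 1) = 65536 ^ n * 65536 := pow_succ _ _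
      rw [hB, hB']
      rw [hB'] at hEq
      linear_combination (65536 : ℕ) * hEq
    · have hB' : (65536 : ℕ) ^ (n + 1) = 65536 ^ n * 65536 := pow_succ _ _
      have h1 : b n * (pk a n * 65536) ≤ A * (2 * A * 65536 ^ n) :=
        Nat.mul_le_mul hbn hP
      calc 65536 * (L + b n * pk a n) * 65536
          = 65536 * (L * 65536) + 65536 * (b n * (pk a n * 65536)) := by ring
        _ ≤ 65536 * (2 * A * A * n * 65536 ^ n) + 65536 * (A * (2 * A * 65536 ^ n)) := by
            exact Nat.add_le_add (Nat.mul_le_mul_left _ hL) (Nat.mul_le_mul_left _ h1)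
        _ = 2 * A * A * (n + 1) * 65536 ^ (n + 1) := by rw [hB']; ring

theorem dot_extract (a b : Nat → Nat) (A m : Nat)
    (ha : ∀ k < m + 1, a k ≤ A) (hb : ∀ k < m + 1, b k ≤ A)
    (hbig : 2 * A * A * (m + 1) < 65536) :
    (pk a (m + 1) * qk b (m + 1)) / 65536 ^ m % 65536 =
      ∑ k ∈ Finset.range (m + 1), a k * b k := by
  obtain ⟨L, H, hEq, hL⟩ := dot_main a b A (m + 1) ha hb
  set d := ∑ k ∈ Finset.range (m + 1), a k * b k with hd
  have hdle : d ≤ (m + 1) * (A * A) := by
    have := Finset.sum_le_card_nsmul (Finset.range (m + 1)) (fun k => a k * b k) (A * A)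
      (fun k hk => Nat.mul_le_mul (ha k (Finset.mem_range.mp hk)) (hb k (Finset.mem_range.mp hk)))
    simpa using this
  have hdlt : d < 65536 := by nlinarith
  have hLlt : L < 65536 ^ (m + 1) := by
    by_contra hcon
    replace hcon := not_lt.mp hcon
    have h1 : 65536 ^ (m + 1) * 65536 ≤ L * 65536 := Nat.mul_le_mul_right _ hcon
    have h2 : 2 * A * A * (m + 1) * 65536 ^ (m + 1) < 65536 * 65536 ^ (m + 1) :=
      Nat.mul_lt_mul_of_pos_right hbig (by positivity)
    nlinarith
  have hpos : 0 < (65536 : ℕ) ^ (m + 1) := by positivity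
  have h1 : (pk a (m + 1) * qk b (m + 1)) / 65536 ^ m =
      (pk a (m + 1) * qk b (m + 1) * 65536) / 65536 ^ (m + 1) := by
    rw [pow_succ, Nat.mul_div_mul_right _ _ (by norm_num)]
  rw [h1, hEq]
  have h2 : L + d * 65536 ^ (m + 1) + H * 65536 ^ (m + 1 + 1) =
      L + 65536 ^ (m + 1) * (d + H * 65536) := by
    rw [pow_succ _ (m + 1)]; ring
  rw [h2, Nat.add_mul_div_left _ _ hpos, Nat.div_eq_of_lt hLlt, Nat.zero_add,
    Nat.add_mul_mod_self_right, Nat.mod_eq_of_lt hdlt]

/-- the general pigeonhole statement for Borsuk partitions of a finite point family -/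
theorem no_partition {E : Type*} [PseudoMetricSpace E] {ι : Type*} [Fintype ι] [DecidableEq ι]
    (pt : ι → E) (D : ℝ) (parts r : ℕ)
    (hcard : parts * r < Fintype.card ι)
    (hfar : ∀ s : Finset ι, s.card = r + 1 → ∃ i ∈ s, ∃ j ∈ s, D ≤ dist (pt i) (pt j))
    (P : Fin parts → Set E) (hU : (⋃ i, P i) = Set.range pt)
    (hdiam : ∀ i, Metric.diam (P i) < D) : False := by
  have hmem : ∀ a : ι, ∃ i : Fin parts, pt a ∈ P i := by
    intro a
    have : pt a ∈ ⋃ i, P i := by rw [hU]; exact Set.mem_range_self a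
    simpa using this
  choose f hf using hmem
  have hbdd : ∀ i, Bornology.IsBounded (P i) := by
    intro i
    have h1 : P i ⊆ Set.range pt := by
      rw [← hU]; exact Set.subset_iUnion P i
    exact (Set.finite_range pt).isBounded.subset h1
  obtain ⟨y, -, hy⟩ := Finset.exists_lt_card_fiber_of_mul_lt_card_of_maps_to
    (s := (Finset.univ : Finset ι)) (t := (Finset.univ : Finset (Fin parts))) (f := f) (n := r)
    (fun a _ => Finset.mem_univ _) (by simpa using hcard)
  obtain ⟨s, hs, hsc⟩ := Finset.exists_subset_card_eq (Nat.succ_le_of_lt hy)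
  obtain ⟨i, hi, j, hj, hD⟩ := hfar s hsc
  have hi' := (Finset.mem_filter.mp (hs hi)).2
  have hj' := (Finset.mem_filter.mp (hs hj)).2
  have h1 : pt i ∈ P y := hi' ▸ hf i
  have h2 : pt j ∈ P y := hj' ▸ hf j
  have := Metric.dist_le_diam_of_mem (hbdd y) h1 h2
  have := hdiam y
  linarith

theorem diam_range_eq {E : Type*} [PseudoMetricSpace E] {ι : Type*} [Fintype ι]
    (pt : ι → E) (D : ℝ) (hD : 0 ≤ D) (hle : ∀ i j, dist (pt i) (pt j) ≤ D)
    (a b : ι) (hab : dist (pt a) (pt b) = D) : Metric.diam (Set.range pt) = D := by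
  apply le_antisymm
  · apply Metric.diam_le_of_forall_dist_le hD
    rintro _ ⟨i, rfl⟩ _ ⟨j, rfl⟩
    exact hle i j
  · rw [← hab]
    exact Metric.dist_le_diam_of_mem (Set.finite_range pt).isBounded
      (Set.mem_range_self a) (Set.mem_range_self b)

end Vale.Agent.Lib.P052
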