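import Vale.Agent.Lib.P052.Dim

/-!
Borsuk's conjecture fails in dimension 63.
-/

namespace Vale.Agent.Lib.P052

open Finset WithLp Module

/-- The scale of the extra point. -/
noncomputable def s : ℝ := (Real.sqrt 222 - 1) / 13

theorem s_eq : 13 * s ^ 2 + 2 * s = 17 := by
  have h : Real.sqrt 222 ^ 2 = 222 := Real.sq_sqrt (by norm_num)
  unfold s
  field_simp
  nlinarith [h]

theorem s_pos : 0 < s := by
  unfold s
  have h : (1 : ℝ) < Real.sqrt 222 := by
    rw [Real.lt_sqrt] <;> norm_num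
  linarith [div_pos (sub_pos.mpr h) (show (0 : ℝ) < 13 by norm_num)]

/-- The extra point. -/
noncomputable def zz : E416 := s • w

theorem zz_mem_L : zz ∈ L := Submodule.smul_mem _ _ w_mem_L

theorem norm_vec_sq (x y : V) : ‖vec x - vec y‖ ^ 2 = 2880 - 192 * N x y := by
  rw [norm_sub_sq_real, ← real_inner_self_eq_norm_sq, ← real_inner_self_eq_norm_sq, inner_vec,
    inner_vec, inner_vec, N_self, N_self]
  ring

theorem norm_zz_sq {x : V} (hx : 96 ≤ (x : ℕ)) :
    ‖zz - vec x‖ ^ 2 = 96 * (13 * s ^ 2 + 15 - 2 * s * N 0 x) := by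
  rw [norm_sub_sq_real, ← real_inner_self_eq_norm_sq, ← real_inner_self_eq_norm_sq, inner_vec,
    N_self]
  unfold zz
  rw [inner_smul_left, inner_smul_right, inner_smul_left, inner_w_w, inner_w_vec hx]
  simp only [conj_trivial]
  ring

/-- The diameter. -/
noncomputable def D : ℝ := Real.sqrt 3072

theorem D_pos : 0 < D := Real.sqrt_pos.mpr (by norm_num)

theorem eq_D {a : ℝ} (ha : 0 ≤ a) (h : a ^ 2 = 3072) : a = D := by
  unfold D
  rw [← h, Real.sqrt_sq ha]

theorem lt_D {a : ℝ} (ha : 0 ≤ a) (h : a ^ 2 < 3072) : a < D := by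
  unfold D
  exact (Real.lt_sqrt ha).mpr h

theorem dist_vec_nonadj {x y : V} (hne : x ≠ y) (h : ¬ Adj x y) : dist (vec x) (vec y) = D := by
  rw [dist_eq_norm]
  apply eq_D (norm_nonneg _)
  rw [norm_vec_sq x y, N_not_adj h hne]
  norm_num

theorem dist_vec_adj {x y : V} (hne : x ≠ y) (h : Adj x y) : dist (vec x) (vec y) < D := by
  rw [dist_eq_norm]
  apply lt_D (norm_nonneg _)
  rw [norm_vec_sq x y, N_adj h hne]
  norm_num

theorem dist_zz_nonadj {x : V} (hx : 96 ≤ (x : ℕ)) (h : ¬ Adj 0 x) : dist zz (vec x) = D := by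
  have hne : (0 : V) ≠ x := by
    intro e
    rw [← e] at hx
    simp at hx
  rw [dist_eq_norm]
  apply eq_D (norm_nonneg _)
  rw [norm_zz_sq hx, N_not_adj h hne]
  have := s_eq
  nlinarith

theorem dist_zz_adj {x : V} (hx : 96 ≤ (x : ℕ)) (h : Adj 0 x) : dist zz (vec x) < D := by
  have hne : (0 : V) ≠ x := by
    intro e
    rw [← e] at hx
    simp at hx
  rw [dist_eq_norm]
  apply lt_D (norm_nonneg _)
  rw [norm_zz_sq hx, N_adj h hne]
  have := s_eq
  have := s_pos
  nlinarith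

/-- An isometric embedding of `L` into `ℝ ^ 63`. -/
theorem exists_isom : ∃ ψ : E416 → EuclideanSpace ℝ (Fin 63),
    ∀ u ∈ L, ∀ v ∈ L, dist (ψ u) (ψ v) = dist u v := by
  classical
  let b := (stdOrthonormalBasis ℝ L).reindex (finCongr finrank_L)
  refine ⟨fun v => if h : v ∈ L then b.repr ⟨v, h⟩ else 0, ?_⟩
  intro u hu v hv
  simp only [hu, hv, dif_pos]
  rw [b.repr.dist_map]
  rfl

theorem nonadj_pair : ¬ Adj (96 : V) (97 : V) := by
  unfold Adj
  have : tb (row 96) 97 = false := by decide +kernel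
  simpa using this

/-- The vertices `96, ..., 415`. -/
def Xset : Finset V := univ.filter fun x => 96 ≤ (x : ℕ)

theorem card_Xset : Xset.card = 320 := by
  decide +kernel

theorem cover_aux {α ι : Type*} [Fintype ι] [DecidableEq α] (X : Finset α) (S : ι → Finset α)
    (h : ∀ x ∈ X, ∃ i, x ∈ S i) : X ⊆ univ.biUnion S := by
  intro x hx
  obtain ⟨i, hi⟩ := h x hx
  exact mem_biUnion.mpr ⟨i, mem_univ i, hi⟩

/-- Borsuk's conjecture fails in dimension 63. -/
theorem main : ∃ Y : Set (EuclideanSpace ℝ (Fin 63)), Y.Finite ∧ 0 < Metric.diam Y ∧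
    ∀ P : Fin 64 → Set (EuclideanSpace ℝ (Fin 63)), (⋃ i, P i) = Y →
      ∃ i, Metric.diam Y ≤ Metric.diam (P i) := by
  classical
  obtain ⟨ψ, hψ⟩ := exists_isom
  have hX : ∀ x ∈ Xset, 96 ≤ (x : ℕ) := fun x hx => (mem_filter.mp hx).2
  have hXL : ∀ x ∈ Xset, vec x ∈ L := fun x hx => vec_mem_L (hX x hx)
  let Y : Set (EuclideanSpace ℝ (Fin 63)) :=
    (fun x => ψ (vec x)) '' (Xset : Set V) ∪ {ψ zz}
  have hYfin : Y.Finite := (Set.Finite.image _ (Finset.finite_toSet _)).union (Set.finite_singleton _)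
  have hYb : Bornology.IsBounded Y := hYfin.isBounded
  have h96 : (96 : V) ∈ Xset := by decide +kernel
  have h97 : (97 : V) ∈ Xset := by decide +kernel
  have hne9697 : (96 : V) ≠ 97 := by decide
  -- all pairs are within `D`
  have hvv : ∀ x ∈ Xset, ∀ y ∈ Xset, dist (ψ (vec x)) (ψ (vec y)) ≤ D := by
    intro x hx y hy
    rw [hψ _ (hXL x hx) _ (hXL y hy)]
    by_cases hxy : x = y
    · subst hxy
      rw [dist_self]
      exact D_pos.le
    · by_cases ha : Adj x y
      · exact (dist_vec_adj hxy ha).le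
      · exact (dist_vec_nonadj hxy ha).le
  have hzv : ∀ x ∈ Xset, dist (ψ zz) (ψ (vec x)) ≤ D := by
    intro x hx
    rw [hψ _ zz_mem_L _ (hXL x hx)]
    by_cases ha : Adj 0 x
    · exact (dist_zz_adj (hX x hx) ha).le
    · exact (dist_zz_nonadj (hX x hx) ha).le
  have hdiam_le : Metric.diam Y ≤ D := by
    refine Metric.diam_le_of_forall_dist_le D_pos.le ?_
    rintro p (⟨x, hx, rfl⟩ | hp) q (⟨y, hy, rfl⟩ | hq)
    · exact hvv x hx y hy
    · rw [Set.mem_singleton_iff.mp hq, dist_comm]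
      exact hzv x hx
    · rw [Set.mem_singleton_iff.mp hp]
      exact hzv y hy
    · rw [Set.mem_singleton_iff.mp hp, Set.mem_singleton_iff.mp hq, dist_self]
      exact D_pos.le
  have hdiam_ge : D ≤ Metric.diam Y := by
    have h1 : ψ (vec 96) ∈ Y := Or.inl ⟨96, h96, rfl⟩
    have h2 : ψ (vec 97) ∈ Y := Or.inl ⟨97, h97, rfl⟩
    have h3 := Metric.dist_le_diam_of_mem hYb h1 h2
    rwa [hψ _ (hXL _ h96) _ (hXL _ h97), dist_vec_nonadj hne9697 nonadj_pair] at h3
  have hdiam : Metric.diam Y = D := le_antisymm hdiam_le hdiam_ge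
  refine ⟨Y, hYfin, by rw [hdiam]; exact D_pos, ?_⟩
  intro P hP
  by_contra hcon
  push Not at hcon
  rw [hdiam] at hcon
  have hPsub : ∀ i, P i ⊆ Y := fun i => hP ▸ Set.subset_iUnion P i
  have hPb : ∀ i, Bornology.IsBounded (P i) := fun i => hYb.subset (hPsub i)
  let S : Fin 64 → Finset V := fun i => Xset.filter fun x => ψ (vec x) ∈ P i
  have hSadj : ∀ i, ∀ x ∈ S i, ∀ y ∈ S i, x ≠ y → Adj x y := by
    intro i x hx y hy hxy
    by_contra ha
    have hx' := mem_filter.mp hx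
    have hy' := mem_filter.mp hy
    have h1 := Metric.dist_le_diam_of_mem (hPb i) hx'.2 hy'.2
    rw [hψ _ (hXL x hx'.1) _ (hXL y hy'.1), dist_vec_nonadj hxy ha] at h1
    linarith [hcon i]
  have hScard : ∀ i, (S i).card ≤ 5 := by
    intro i
    have h := clique_card_le_five ((S i).map Fin.valEmbedding) ?_ ?_
    · rwa [card_map] at h
    · intro a ha
      obtain ⟨x, hx, rfl⟩ := mem_map.mp ha
      exact ⟨hX x (mem_filter.mp hx).1, x.isLt⟩
    · intro a ha b hb hab
      obtain ⟨x, hx, rfl⟩ := mem_map.mp ha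
      obtain ⟨y, hy, rfl⟩ := mem_map.mp hb
      exact hSadj i x hx y hy (fun e => hab (by rw [e]))
  obtain ⟨i0, hi0⟩ : ∃ i0, ψ zz ∈ P i0 := by
    have : ψ zz ∈ ⋃ i, P i := by
      rw [hP]
      exact Or.inr rfl
    exact Set.mem_iUnion.mp this
  have hS0 : (S i0).card ≤ 4 := by
    have h := clique_card_le_four ((S i0).map Fin.valEmbedding) ?_ ?_
    · rwa [card_map] at h
    · intro a ha
      obtain ⟨x, hx, rfl⟩ := mem_map.mp ha
      have hx' := mem_filter.mp hx
      refine ⟨hX x hx'.1, x.isLt, ?_⟩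
      by_contra hna
      have h1 := Metric.dist_le_diam_of_mem (hPb i0) hi0 hx'.2
      rw [hψ _ zz_mem_L _ (hXL x hx'.1), dist_zz_nonadj (hX x hx'.1) hna] at h1
      linarith [hcon i0]
    · intro a ha b hb hab
      obtain ⟨x, hx, rfl⟩ := mem_map.mp ha
      obtain ⟨y, hy, rfl⟩ := mem_map.mp hb
      exact hSadj i0 x hx y hy (fun e => hab (by rw [e]))
  have hex : ∀ x ∈ Xset, ∃ i, ψ (vec x) ∈ P i := by
    intro x hx
    have h5 : ψ (vec x) ∈ ⋃ i, P i := by
      rw [hP]
      exact Or.inl ⟨x, hx, rfl⟩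
    exact Set.mem_iUnion.mp h5
  have hcover : Xset ⊆ univ.biUnion S :=
    cover_aux Xset S fun x hx => (hex x hx).imp fun i hi => mem_filter.mpr ⟨hx, hi⟩
  have h320 : 320 ≤ ∑ i, (S i).card := by
    calc 320 = Xset.card := card_Xset.symm
      _ ≤ (univ.biUnion S).card := card_le_card hcover
      _ ≤ ∑ i, (S i).card := card_biUnion_le
  have h319 : ∑ i, (S i).card ≤ 319 := by
    rw [← add_sum_erase univ _ (mem_univ i0)]
    have h1 : ∑ i ∈ univ.erase i0, (S i).card ≤ (univ.erase i0).card • 5 :=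
      sum_le_card_nsmul _ _ _ fun i _ => hScard i
    have h2 : (univ.erase i0 : Finset (Fin 64)).card = 63 := by
      rw [card_erase_of_mem (mem_univ i0)]
      simp
    rw [h2] at h1
    simp only [smul_eq_mul] at h1
    omega
  omega

end Vale.Agent.Lib.P052
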