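import Mathlib
import Vale.Agent.Lib.P052.KernLemmas
import Vale.Agent.Lib.P052.Check63

namespace Vale.Agent.Lib.P052.D63

open Vale.Agent.Lib.P052

theorem topOK_all (v : Nat) (hv : v < 321) : topOK v = true := by
  by_cases h0 : v < 155
  · exact allIn_spec 0 155 topOK clique_check_0 v (by omega) h0
  by_cases h1 : v < 189
  · exact allIn_spec 155 189 topOK clique_check_1 v (by omega) h1
  by_cases h2 : v < 210
  · exact allIn_spec 189 210 topOK clique_check_2 v (by omega) h2
  by_cases h3 : v < 227
  · exact allIn_spec 210 227 topOK clique_check_3 v (by omega) h3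
  by_cases h4 : v < 241
  · exact allIn_spec 227 241 topOK clique_check_4 v (by omega) h4
  by_cases h5 : v < 253
  · exact allIn_spec 241 253 topOK clique_check_5 v (by omega) h5
  by_cases h6 : v < 264
  · exact allIn_spec 253 264 topOK clique_check_6 v (by omega) h6
  by_cases h7 : v < 273
  · exact allIn_spec 264 273 topOK clique_check_7 v (by omega) h7
  by_cases h8 : v < 282
  · exact allIn_spec 273 282 topOK clique_check_8 v (by omega) h8
  by_cases h9 : v < 289
  · exact allIn_spec 282 289 topOK clique_check_9 v (by omega) h9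
  by_cases h10 : v < 296
  · exact allIn_spec 289 296 topOK clique_check_10 v (by omega) h10
  by_cases h11 : v < 302
  · exact allIn_spec 296 302 topOK clique_check_11 v (by omega) h11
  by_cases h12 : v < 309
  · exact allIn_spec 302 309 topOK clique_check_12 v (by omega) h12
  by_cases h13 : v < 315
  · exact allIn_spec 309 315 topOK clique_check_13 v (by omega) h13
  by_cases h14 : v < 321
  · exact allIn_spec 315 321 topOK clique_check_14 v (by omega) h14
  omega

theorem digits_all (i : Nat) (hi : i < 322) :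
    row i = pk (dig i) 63 ∧ rev i = qk (dig i) 63 ∧ ∀ k, k < 63 → dig i k ≤ 8 := by
  have h := allLt_spec 322 digitsOK digits_check i hi
  unfold digitsOK at h
  rw [Bool.and_eq_true, Bool.and_eq_true] at h
  refine ⟨Nat.eq_of_beq_eq_true h.1.1, Nat.eq_of_beq_eq_true h.1.2, ?_⟩
  intro k hk
  exact Nat.le_of_ble_eq_true (allLt_spec 63 _ h.2 k hk)

theorem dotP_eq (i j : Nat) (hi : i < 322) (hj : j < 322) :
    dotP i j = ∑ k ∈ Finset.range 63, dig i k * dig j k := by
  obtain ⟨h1, -, h2⟩ := digits_all i hi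
  obtain ⟨-, h3, h4⟩ := digits_all j hj
  have := dot_extract (dig i) (dig j) 8 62 h2 h4 (by norm_num)
  rw [← this, ← h1, ← h3]
  unfold dotP
  rw [Nat.shiftRight_eq_div_pow]
  have h5 : (2 : ℕ) ^ 992 = 65536 ^ 62 := pow_mul 2 16 62
  rw [h5]

abbrev E63 := EuclideanSpace ℝ (Fin 63)

noncomputable def u (i : Nat) : E63 := WithLp.toLp 2 (fun k : Fin 63 => ((dig i k : ℕ) : ℝ))

theorem dist_u_sq (i j : Nat) (hi : i < 322) (hj : j < 322) :
    dist (u i) (u j) ^ 2 = (dotP i i : ℝ) + dotP j j - 2 * dotP i j := by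
  rw [EuclideanSpace.dist_eq, Real.sq_sqrt (Finset.sum_nonneg (fun _ _ => by positivity))]
  rw [dotP_eq i i hi hi, dotP_eq j j hj hj, dotP_eq i j hi hj]
  push_cast
  have key : ∀ f : ℕ → ℝ, ∑ k : Fin 63, f k = ∑ k ∈ Finset.range 63, f k :=
    fun f => Fin.sum_univ_eq_sum_range f 63
  have h1 : ∀ k : Fin 63, dist ((u i) k) ((u j) k) ^ 2 =
      (fun n : ℕ => ((dig i n : ℝ) - dig j n) ^ 2) k := by
    intro k
    simp only [u, Real.dist_eq, sq_abs]
  rw [Finset.sum_congr rfl (fun k _ => h1 k), key (fun n : ℕ => ((dig i n : ℝ) - dig j n) ^ 2)]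
  rw [Finset.mul_sum, ← Finset.sum_add_distrib, ← Finset.sum_sub_distrib]
  apply Finset.sum_congr rfl
  intro k _
  ring

theorem pair_sq (i j : Nat) (hj : j < i) (hi : i < 321) :
    dist (u i) (u j) ^ 2 =
      ((cond ((mask i).testBit j) (cond (Nat.beq i 320) 88 96) (cond (Nat.beq i 320) 120 128) : ℕ) : ℝ) := by
  have h := allLt_spec i _ (allLt_spec 321 _ pairs_check i hi) j hj
  have h2 := Nat.eq_of_beq_eq_true h
  rw [dist_u_sq i j (by omega) (by omega)]
  have h3 : ((dotP i i + dotP j j : ℕ) : ℝ) = ((2 * dotP i j + cond ((mask i).testBit j)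
      (cond (Nat.beq i 320) 88 96) (cond (Nat.beq i 320) 120 128) : ℕ) : ℝ) := by
    exact_mod_cast h2
  push_cast at h3
  linarith

theorem origin_sq (i : Nat) (hi : i < 321) :
    dist (u i) (u 321) ^ 2 = ((cond (Nat.beq i 320) 52 60 : ℕ) : ℝ) := by
  have h := allLt_spec 321 _ origin_check i hi
  have h2 := Nat.eq_of_beq_eq_true h
  rw [dist_u_sq i 321 (by omega) (by omega)]
  have h3 : ((dotP i i + dotP 321 321 : ℕ) : ℝ) =
      ((2 * dotP i 321 + cond (Nat.beq i 320) 52 60 : ℕ) : ℝ) := by
    exact_mod_cast h2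
  push_cast at h3
  linarith

/-- the scaling constant: the positive root of 13 c ^ 2 + 2 c = 17 -/
noncomputable def cc : ℝ := (Real.sqrt 222 - 1) / 13

theorem cc_pos : 0 < cc := by
  unfold cc
  have : (1 : ℝ) < Real.sqrt 222 := by
    rw [Real.lt_sqrt (by norm_num)]
    norm_num
  apply div_pos <;> linarith

theorem cc_eq : 13 * cc ^ 2 + 2 * cc = 17 := by
  unfold cc
  have h : Real.sqrt 222 ^ 2 = 222 := Real.sq_sqrt (by norm_num)
  field_simp
  nlinarith [h]

noncomputable def yy : E63 := u 321 + cc • (u 320 - u 321)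

theorem norm_aux (q p : E63) (c : ℝ) :
    ‖c • q - p‖ ^ 2 = c ^ 2 * ‖q‖ ^ 2 - c * (‖q‖ ^ 2 + ‖p‖ ^ 2 - ‖q - p‖ ^ 2) + ‖p‖ ^ 2 := by
  rw [norm_sub_sq_real (c • q) p, norm_sub_sq_real q p, norm_smul, inner_smul_left]
  simp only [Real.norm_eq_abs, mul_pow, sq_abs, conj_trivial]
  ring

theorem dist_yy_sq (U : E63) :
    dist yy U ^ 2 = cc ^ 2 * dist (u 320) (u 321) ^ 2
      - cc * (dist (u 320) (u 321) ^ 2 + dist U (u 321) ^ 2 - dist (u 320) U ^ 2)
      + dist U (u 321) ^ 2 := by
  simp only [dist_eq_norm]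
  have h1 : yy - U = cc • (u 320 - u 321) - (U - u 321) := by
    unfold yy
    abel
  have h2 : u 320 - U = (u 320 - u 321) - (U - u 321) := by abel
  rw [h1, h2]
  exact norm_aux _ _ _

noncomputable def pt (i : Fin 321) : E63 := if i.val = 320 then yy else u i.val

theorem yy_sq (j : Nat) (hj : j < 320) :
    dist yy (u j) ^ 2 = cond ((mask 320).testBit j) (128 - 32 * cc) 128 := by
  rw [dist_yy_sq]
  have h1 := origin_sq 320 (by norm_num)
  have h2 := origin_sq j (by omega)
  have h3 := pair_sq 320 j hj (by norm_num)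
  have hj' : Nat.beq j 320 = false := by
    cases hh : Nat.beq j 320 with
    | false => rfl
    | true => exact absurd (Nat.eq_of_beq_eq_true hh) (by omega)
  rw [hj'] at h2
  have h320 : Nat.beq 320 320 = true := rfl
  rw [h320] at h1 h3
  simp only [cond_true, cond_false] at h1 h2 h3
  rw [h1, h2, h3]
  have hc := cc_eq
  cases hb : (mask 320).testBit j <;> simp only [cond_true, cond_false] <;> push_cast <;> nlinarith [hc]

noncomputable def DD : ℝ := Real.sqrt 128

theorem DD_pos : 0 < DD := Real.sqrt_pos.mpr (by norm_num)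

theorem DD_sq : DD ^ 2 = 128 := Real.sq_sqrt (by norm_num)

/-- squared distances below the index order -/
theorem pt_sq (a b : Fin 321) (hab : b.val < a.val) :
    dist (pt a) (pt b) ^ 2 ≤ 128 ∧ ((mask a.val).testBit b.val = false → dist (pt a) (pt b) ^ 2 = 128) := by
  have hb : pt b = u b.val := by
    unfold pt
    rw [if_neg]
    have := a.isLt
    omega
  by_cases ha : a.val = 320
  · have hpa : pt a = yy := by
      unfold pt
      rw [if_pos ha]
    rw [hpa, hb, yy_sq b.val (by omega), ha]
    have hc := cc_pos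
    constructor
    · cases (mask 320).testBit b.val <;> simp only [cond_true, cond_false] <;> linarith
    · intro h
      rw [h]
      rfl
  · have hpa : pt a = u a.val := by
      unfold pt
      rw [if_neg ha]
    rw [hpa, hb, pair_sq a.val b.val hab a.isLt]
    have hbeq : Nat.beq a.val 320 = false := by
      cases hh : Nat.beq a.val 320 with
      | false => rfl
      | true => exact absurd (Nat.eq_of_beq_eq_true hh) ha
    rw [hbeq]
    constructor
    · cases (mask a.val).testBit b.val <;> norm_num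
    · intro h
      rw [h]
      norm_num

theorem pt_le (a b : Fin 321) : dist (pt a) (pt b) ≤ DD := by
  have key : ∀ a b : Fin 321, b.val < a.val → dist (pt a) (pt b) ≤ DD := by
    intro a b hab
    have h := (pt_sq a b hab).1
    apply abs_le_of_sq_le_sq' _ DD_pos.le |>.2
    rw [DD_sq]
    exact h
  rcases lt_trichotomy a.val b.val with h | h | h
  · rw [dist_comm]
    exact key b a h
  · have : a = b := Fin.ext h
    rw [this, dist_self]
    exact DD_pos.le
  · exact key a b h

/-- a pair at distance below the diameter is marked in the mask -/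
theorem pt_bit (a b : Fin 321) (hab : b.val < a.val) (hlt : dist (pt a) (pt b) < DD) :
    (mask a.val).testBit b.val = true := by
  by_contra hcon
  have h0 : (mask a.val).testBit b.val = false := by simpa using hcon
  have h := (pt_sq a b hab).2 h0
  have hD := DD_sq
  have hnn : 0 ≤ dist (pt a) (pt b) := dist_nonneg
  nlinarith

theorem no_six (s : Finset (Fin 321)) (hs : s.card = 6) :
    ∃ i ∈ s, ∃ j ∈ s, DD ≤ dist (pt i) (pt j) := by
  by_contra hcon
  have hall : ∀ i ∈ s, ∀ j ∈ s, dist (pt i) (pt j) < DD := by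
    intro i hi j hj
    by_contra h
    exact hcon ⟨i, hi, j, hj, not_lt.mp h⟩
  set e := s.orderEmbOfFin hs with he
  have hmem : ∀ i, e i ∈ s := fun i => Finset.orderEmbOfFin_mem s hs i
  have hbit : ∀ i j : Fin 6, i < j → (mask (e j).val).testBit (e i).val = true := by
    intro i j hij
    have h1 : e i < e j := e.strictMono hij
    exact pt_bit (e j) (e i) h1 (hall _ (hmem j) _ (hmem i))
  have hlt : ∀ i j : Fin 6, i < j → (e i).val < (e j).val := by
    intro i j hij
    exact e.strictMono hij
  have htop := topOK_all (e 5).val (e 5).isLt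
  unfold topOK at htop
  refine noK_sound maskR 347 321 5 _ htop [(e 4).val, (e 3).val, (e 2).val, (e 1).val, (e 0).val]
    rfl ?_ ?_
  · intro y hy
    have aux : ∀ i : Fin 6, i < 5 → (mask (e 5).val % 2 ^ (e 5).val).testBit (e i).val = true := by
      intro i hi
      rw [Nat.testBit_mod_two_pow]
      simp only [Bool.and_eq_true, decide_eq_true_eq]
      exact ⟨hlt i 5 hi, hbit i 5 hi⟩
    simp only [List.mem_cons, List.not_mem_nil, or_false] at hy
    rcases hy with rfl | rfl | rfl | rfl | rfl
    · exact aux 4 (by decide)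
    · exact aux 3 (by decide)
    · exact aux 2 (by decide)
    · exact aux 1 (by decide)
    · exact aux 0 (by decide)
  · have aux : ∀ i j : Fin 6, j < i → (maskR (2 ^ (e i).val % 347)).testBit (e j).val = true :=
      fun i j hij => hbit j i hij
    simp only [List.pairwise_cons, List.mem_cons, List.not_mem_nil, or_false, forall_eq_or_imp,
      forall_eq, IsEmpty.forall_iff, implies_true, List.Pairwise.nil, and_true]
    refine ⟨⟨aux 4 3 (by decide), aux 4 2 (by decide), aux 4 1 (by decide), aux 4 0 (by decide)⟩,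
      ⟨aux 3 2 (by decide), aux 3 1 (by decide), aux 3 0 (by decide)⟩,
      ⟨aux 2 1 (by decide), aux 2 0 (by decide)⟩, aux 1 0 (by decide)⟩

/-- pair at distance exactly the diameter: vertices 1 and 0, or any non adjacent pair -/
theorem exists_far : ∃ a b : Fin 321, dist (pt a) (pt b) = DD := by
  obtain ⟨i, -, j, -, hij⟩ := no_six (Finset.univ.filter (fun i : Fin 321 => i.val < 6))
    (by decide +kernel)
  exact ⟨i, j, le_antisymm (pt_le i j) hij⟩

theorem main :
    ∃ Y : Set (EuclideanSpace ℝ (Fin 63)), Y.Finite ∧ 0 < Metric.diam Y ∧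
      ¬ ∃ P : Fin 64 → Set (EuclideanSpace ℝ (Fin 63)),
        (⋃ i, P i) = Y ∧ ∀ i, Metric.diam (P i) < Metric.diam Y := by
  obtain ⟨a, b, hab⟩ := exists_far
  have hdiam : Metric.diam (Set.range pt) = DD :=
    diam_range_eq pt DD DD_pos.le pt_le a b hab
  refine ⟨Set.range pt, Set.finite_range pt, by rw [hdiam]; exact DD_pos, ?_⟩
  rintro ⟨P, hU, hP⟩
  rw [hdiam] at hP
  exact no_partition pt DD 64 5 (by simp) no_six P hU hP

end Vale.Agent.Lib.P052.D63
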