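import Mathlib
import Vale.Agent.Lib.P052.Checks

/-!
Meaning of the kernel checks of `Checks.lean`: the table `row` is the adjacency table of a
strongly regular graph with parameters `(416, 100, 36, 20)`, with three orbits of size 32 having
the stated neighbour counts, and with the stated clique bounds.
-/

namespace Vale.Agent.Lib.P052

open Finset

theorem tb_eq (m y : ℕ) : tb m y = m.testBit y := by
  have h : Nat.land (Nat.shiftRight m y) 1 = (m / 2 ^ y) % 2 := by
    change (m >>> y) &&& 1 = _
    rw [Nat.and_one_is_mod, Nat.shiftRight_eq_div_pow]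
  unfold tb
  rw [h, Nat.testBit_eq_decide_div_mod_eq]
  cases h2 : Nat.beq (m / 2 ^ y % 2) 1
  · have : ¬ (m / 2 ^ y % 2 = 1) := by
      intro h3
      rw [h3] at h2
      simp at h2
    simp [this]
  · have : m / 2 ^ y % 2 = 1 := Nat.eq_of_beq_eq_true h2
    simp [this]

theorem allBelow_iff (n : ℕ) (p : ℕ → Bool) : allBelow n p = true ↔ ∀ i < n, p i = true := by
  induction n with
  | zero => simp [allBelow]
  | succ n ih =>
    simp only [allBelow, Bool.and_eq_true, ih]
    constructor
    · rintro ⟨h1, h2⟩ i hi
      rcases Nat.lt_succ_iff_lt_or_eq.mp hi with h | rfl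
      · exact h2 i h
      · exact h1
    · intro h
      exact ⟨h n (Nat.lt_succ_self n), fun i hi => h i (Nat.lt_succ_of_lt hi)⟩

theorem allFrom_iff (a : ℕ) (p : ℕ → Bool) (n : ℕ) :
    allFrom a p n = true ↔ ∀ i < n, p (a + i) = true := by
  induction n with
  | zero => simp [allFrom]
  | succ n ih =>
    simp only [allFrom, Bool.and_eq_true, ih]
    constructor
    · rintro ⟨h1, h2⟩ i hi
      rcases Nat.lt_succ_iff_lt_or_eq.mp hi with h | rfl
      · exact h2 i h
      · exact h1
    · intro h
      exact ⟨h n (Nat.lt_succ_self n), fun i hi => h i (Nat.lt_succ_of_lt hi)⟩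

theorem use_chunk {a n y : ℕ} {p : ℕ → Bool} (h : allFrom a p n = true) (h1 : a ≤ y) (h2 : y < a + n) :
    p y = true := by
  have h3 := (allFrom_iff a p n).mp h (y - a) (by omega)
  have e : a + (y - a) = y := by omega
  rwa [e] at h3

theorem symRow_all {x : ℕ} (hx : x < 416) : symRow x = true := by
  by_cases h0 : x < 32
  · exact use_chunk check_symm_0 (by omega) (by omega)
  by_cases h1 : x < 64
  · exact use_chunk check_symm_1 (by omega) (by omega)
  by_cases h2 : x < 96
  · exact use_chunk check_symm_2 (by omega) (by omega)
  by_cases h3 : x < 128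
  · exact use_chunk check_symm_3 (by omega) (by omega)
  by_cases h4 : x < 160
  · exact use_chunk check_symm_4 (by omega) (by omega)
  by_cases h5 : x < 192
  · exact use_chunk check_symm_5 (by omega) (by omega)
  by_cases h6 : x < 224
  · exact use_chunk check_symm_6 (by omega) (by omega)
  by_cases h7 : x < 256
  · exact use_chunk check_symm_7 (by omega) (by omega)
  by_cases h8 : x < 288
  · exact use_chunk check_symm_8 (by omega) (by omega)
  by_cases h9 : x < 320
  · exact use_chunk check_symm_9 (by omega) (by omega)
  by_cases h10 : x < 352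
  · exact use_chunk check_symm_10 (by omega) (by omega)
  by_cases h11 : x < 384
  · exact use_chunk check_symm_11 (by omega) (by omega)
  exact use_chunk check_symm_12 (by omega) (by omega)

theorem srgRow_all {x : ℕ} (hx : x < 416) : srgRow x = true := by
  by_cases h0 : x < 32
  · exact use_chunk check_srg_0 (by omega) (by omega)
  by_cases h1 : x < 64
  · exact use_chunk check_srg_1 (by omega) (by omega)
  by_cases h2 : x < 96
  · exact use_chunk check_srg_2 (by omega) (by omega)
  by_cases h3 : x < 128
  · exact use_chunk check_srg_3 (by omega) (by omega)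
  by_cases h4 : x < 160
  · exact use_chunk check_srg_4 (by omega) (by omega)
  by_cases h5 : x < 192
  · exact use_chunk check_srg_5 (by omega) (by omega)
  by_cases h6 : x < 224
  · exact use_chunk check_srg_6 (by omega) (by omega)
  by_cases h7 : x < 256
  · exact use_chunk check_srg_7 (by omega) (by omega)
  by_cases h8 : x < 288
  · exact use_chunk check_srg_8 (by omega) (by omega)
  by_cases h9 : x < 320
  · exact use_chunk check_srg_9 (by omega) (by omega)
  by_cases h10 : x < 352
  · exact use_chunk check_srg_10 (by omega) (by omega)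
  by_cases h11 : x < 384
  · exact use_chunk check_srg_11 (by omega) (by omega)
  exact use_chunk check_srg_12 (by omega) (by omega)

/-- Adjacency as a `0/1` natural number. -/
def a' (x y : ℕ) : ℕ := if tb (row x) y = true then 1 else 0

theorem a'_le (x y : ℕ) : a' x y ≤ 1 := by
  unfold a'; split_ifs <;> simp

theorem sumBits_eq (g : ℕ → ℕ) (m n : ℕ) :
    sumBits g m n = ∑ y ∈ range n, if tb m y = true then g y else 0 := by
  induction n with
  | zero => simp [sumBits]
  | succ n ih =>
    rw [sum_range_succ, ← ih]
    change sumBits g m n + (match tb m n with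
      | true => g n
      | false => 0) = _
    cases tb m n <;> simp

theorem sumTo_eq (g : ℕ → ℕ) (n : ℕ) : sumTo g n = ∑ i ∈ range n, g i := by
  induction n with
  | zero => simp [sumTo]
  | succ n ih =>
    rw [sum_range_succ, ← ih]
    rfl

theorem cnt_eq (z a n : ℕ) : cnt z a n = ∑ i ∈ range n, a' (a + i) z := by
  induction n with
  | zero => simp [cnt]
  | succ n ih =>
    rw [sum_range_succ, ← ih]
    change cnt z a n + (match tb (row (Nat.add a n)) z with
      | true => 1
      | false => 0) = _
    unfold a'
    change _ = _ + if tb (row (Nat.add a n)) z = true then 1 else 0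
    cases tb (row (Nat.add a n)) z <;> simp

theorem enc_eq (v : ℕ) : enc v = ∑ y ∈ range 416, a' v y * bp y := by
  unfold enc
  rw [sumBits_eq]
  refine sum_congr rfl fun y _ => ?_
  unfold a'
  split_ifs <;> simp

/-- The `(x, z)` entry of `A ^ 2`. -/
def c' (x z : ℕ) : ℕ := ∑ v ∈ range 416, a' x v * a' v z

theorem c'_le (x z : ℕ) : c' x z ≤ 416 := by
  unfold c'
  calc ∑ v ∈ range 416, a' x v * a' v z ≤ ∑ _v ∈ range 416, 1 := by
        refine sum_le_sum fun v _ => ?_
        exact Nat.mul_le_mul (a'_le _ _) (a'_le _ _)
    _ = 416 := by simp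

theorem sq_eq (x : ℕ) : sq x = ∑ z ∈ range 416, c' x z * bp z := by
  unfold sq
  rw [sumBits_eq]
  unfold c'
  simp only [sum_mul]
  rw [sum_comm]
  refine sum_congr rfl fun v _ => ?_
  rw [enc_eq]
  unfold a'
  split_ifs
  · simp
  · simp

theorem bp_eq (y : ℕ) : bp y = 1024 ^ y := by
  unfold bp
  change 2 ^ (10 * y) = _
  rw [pow_mul]
  norm_num

theorem digits_unique (n : ℕ) : ∀ (a b : ℕ → ℕ), (∀ i < n, a i < 1024) → (∀ i < n, b i < 1024) →
    (∑ i ∈ range n, a i * 1024 ^ i = ∑ i ∈ range n, b i * 1024 ^ i) → ∀ i < n, a i = b i := by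
  induction n with
  | zero => intro a b _ _ _ i hi; omega
  | succ n ih =>
    intro a b ha hb h i hi
    rw [sum_range_succ', sum_range_succ'] at h
    have e1 : ∀ c : ℕ → ℕ, ∑ k ∈ range n, c (k + 1) * 1024 ^ (k + 1)
        = 1024 * ∑ k ∈ range n, c (k + 1) * 1024 ^ k := by
      intro c
      rw [mul_sum]
      refine sum_congr rfl fun k _ => ?_
      ring
    rw [e1 a, e1 b] at h
    simp only [pow_zero, mul_one] at h
    have h0a := ha 0 (Nat.succ_pos n)
    have h0b := hb 0 (Nat.succ_pos n)
    have h0 : a 0 = b 0 := by omega
    have hs : ∑ k ∈ range n, a (k + 1) * 1024 ^ k = ∑ k ∈ range n, b (k + 1) * 1024 ^ k := by omega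
    cases i with
    | zero => exact h0
    | succ j =>
      exact ih (fun k => a (k + 1)) (fun k => b (k + 1)) (fun k hk => ha _ (by omega))
        (fun k hk => hb _ (by omega)) hs j (by omega)

theorem bp_sum_single {x : ℕ} (hx : x < 416) :
    bp x = ∑ z ∈ range 416, (if z = x then 1 else 0) * bp z := by
  rw [sum_eq_single x]
  · simp
  · intro b _ hb
    simp [hb]
  · intro h
    exact absurd (mem_range.mpr hx) h

theorem srg_digit {x z : ℕ} (hx : x < 416) (hz : z < 416) :
    c' x z + 20 * a' x z + 20 * (if z = x then 1 else 0)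
      = 100 * (if z = x then 1 else 0) + 36 * a' x z + 20 := by
  have h := srgRow_all hx
  unfold srgRow at h
  have h2 := Nat.eq_of_beq_eq_true h
  simp only [Nat.add_eq, Nat.mul_eq] at h2
  unfold allOnes at h2
  rw [sumTo_eq, sq_eq, enc_eq, bp_sum_single hx] at h2
  have e1 : ∑ z ∈ range 416, (c' x z + 20 * a' x z + 20 * (if z = x then 1 else 0)) * bp z
      = ∑ z ∈ range 416, c' x z * bp z + (20 * ∑ z ∈ range 416, a' x z * bp z
        + 20 * ∑ z ∈ range 416, (if z = x then 1 else 0) * bp z) := by
    simp only [add_mul, sum_add_distrib, mul_assoc, ← mul_sum, add_assoc]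
  have e2 : ∑ z ∈ range 416, (100 * (if z = x then 1 else 0) + 36 * a' x z + 20) * bp z
      = 100 * ∑ z ∈ range 416, (if z = x then 1 else 0) * bp z
        + (36 * ∑ z ∈ range 416, a' x z * bp z + 20 * ∑ z ∈ range 416, bp z) := by
    simp only [add_mul, sum_add_distrib, mul_assoc, ← mul_sum, add_assoc]
  have key : ∑ z ∈ range 416, (c' x z + 20 * a' x z + 20 * (if z = x then 1 else 0)) * 1024 ^ z
      = ∑ z ∈ range 416, (100 * (if z = x then 1 else 0) + 36 * a' x z + 20) * 1024 ^ z := by
    have e3 : ∀ f : ℕ → ℕ, ∑ z ∈ range 416, f z * 1024 ^ z = ∑ z ∈ range 416, f z * bp z :=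
      fun f => sum_congr rfl fun z _ => by rw [bp_eq]
    rw [e3, e3, e1, e2]
    convert h2 using 1
  have hd := digits_unique 416 (fun z => c' x z + 20 * a' x z + 20 * (if z = x then 1 else 0))
    (fun z => 100 * (if z = x then 1 else 0) + 36 * a' x z + 20) ?_ ?_ key z hz
  · exact hd
  · intro i _
    have h1 := c'_le x i
    have h3 := a'_le x i
    split_ifs <;> simp <;> omega
  · intro i _
    have h3 := a'_le x i
    split_ifs <;> simp <;> omega

theorem adj_symm {x y : ℕ} (hx : x < 416) (hy : y < 416) : tb (row x) y = tb (row y) x := by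
  have h := (allBelow_iff 416 _).mp (symRow_all hx) y hy
  revert h
  cases tb (row x) y <;> cases tb (row y) x <;> simp [eqB]

theorem a'_symm {x y : ℕ} (hx : x < 416) (hy : y < 416) : a' x y = a' y x := by
  unfold a'
  rw [adj_symm hx hy]

theorem adj_irrefl {x : ℕ} (hx : x < 416) : tb (row x) x = false := by
  have h := (allBelow_iff 416 _).mp check_irrefl x hx
  simpa using h

theorem a'_self {x : ℕ} (hx : x < 416) : a' x x = 0 := by
  unfold a'
  rw [adj_irrefl hx]
  simp

/-- The strongly regular identity. -/
theorem c'_eq {x z : ℕ} (hx : x < 416) (hz : z < 416) :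
    c' x z = if z = x then 100 else if tb (row x) z = true then 36 else 20 := by
  have h := srg_digit hx hz
  by_cases hzx : z = x
  · subst hzx
    rw [a'_self hx] at h
    simp at h ⊢
    omega
  · simp only [hzx, if_false] at h ⊢
    unfold a' at h
    split_ifs at h ⊢ <;> omega

theorem orb_eq {z a : ℕ} (hz : z < 416) (ha : a = 0 ∨ a = 32 ∨ a = 64) :
    ∑ i ∈ range 32, a' (a + i) z = expCnt z a := by
  have h := (allBelow_iff 416 _).mp check_orb z hz
  simp only [Bool.and_eq_true] at h
  rw [← cnt_eq]
  rcases ha with rfl | rfl | rfl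
  · exact Nat.eq_of_beq_eq_true h.1
  · exact Nat.eq_of_beq_eq_true h.2.1
  · exact Nat.eq_of_beq_eq_true h.2.2

theorem expCnt_eq (z a : ℕ) : expCnt z a = if 96 ≤ z then 8 else if a ≤ z ∧ z < a + 32 then 20 else 0 := by
  unfold expCnt
  by_cases h : 96 ≤ z
  · have : Nat.ble 96 z = true := Nat.ble_eq.mpr h
    simp [this, h]
  · have h' : Nat.ble 96 z = false := by
      cases hb : Nat.ble 96 z
      · rfl
      · exact absurd (Nat.ble_eq.mp hb) h
    simp only [h', h, if_false]
    by_cases h1 : a ≤ z
    · by_cases h2 : z < a + 32
      · have e1 : Nat.ble a z = true := Nat.ble_eq.mpr h1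
        have e2 : Nat.ble (Nat.add z 1) (Nat.add a 32) = true := Nat.ble_eq.mpr h2
        simp [e1, e2, h1, h2]
      · have e2 : Nat.ble (Nat.add z 1) (Nat.add a 32) = false := by
          cases hb : Nat.ble (Nat.add z 1) (Nat.add a 32)
          · rfl
          · exact absurd (Nat.ble_eq.mp hb) h2
        simp [e2, h2]
    · have e1 : Nat.ble a z = false := by
        cases hb : Nat.ble a z
        · rfl
        · exact absurd (Nat.ble_eq.mp hb) h1
      simp [e1, h1]

/-- Bits of `land`. -/
theorem tb_land (m n y : ℕ) : tb (Nat.land m n) y = (tb m y && tb n y) := by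
  simp only [tb_eq]
  exact Nat.testBit_land m n y

theorem tb_xor_pow (m y z : ℕ) : tb (Nat.xor m (Nat.pow 2 y)) z = (tb m z ^^ decide (z = y)) := by
  simp only [tb_eq]
  change (m ^^^ 2 ^ y).testBit z = _
  rw [Nat.testBit_xor, Nat.testBit_two_pow]
  by_cases h : z = y
  · subst h; simp
  · have h' : ¬ y = z := fun e => h e.symm
    simp [h, h']

/-- Soundness of the clique search. -/
theorem cf_sound : ∀ (f k m : ℕ), cf f k m = true → 1 ≤ k → ∀ S : Finset ℕ, S.card = k →
    (∀ a ∈ S, tb m a = true) → (∀ a ∈ S, ∀ b ∈ S, a ≠ b → tb (row a) b = true) → False := by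
  intro f
  induction f with
  | zero =>
    intro k m h hk S hS hm _
    have hm0 : m = 0 := Nat.eq_of_beq_eq_true h
    obtain ⟨a, ha⟩ : S.Nonempty := by
      rw [← card_pos]; omega
    have := hm a ha
    rw [hm0, tb_eq] at this
    simp at this
  | succ f ih =>
    intro k m h hk S hS hm hcl
    have hne : Nat.beq m 0 = false := by
      cases hb : Nat.beq m 0
      · rfl
      · have hm0 : m = 0 := Nat.eq_of_beq_eq_true hb
        exfalso
        obtain ⟨a, ha⟩ : S.Nonempty := by
          rw [← card_pos]; omega
        have := hm a ha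
        rw [hm0, tb_eq] at this
        simp at this
    unfold cf at h
    rw [hne] at h
    match k, hk, h, hS with
    | 1, _, h, _ => simp at h
    | k' + 2, _, h, hS =>
      simp only [Bool.and_eq_true] at h
      obtain ⟨hy, h1, h2⟩ := h
      set y := hb m with hy_def
      set m' := Nat.xor m (Nat.pow 2 y) with hm'
      have hbit : ∀ a, a ≠ y → tb m a = true → tb m' a = true := by
        intro a ha hma
        rw [hm', tb_xor_pow, hma]
        simp [ha]
      by_cases hyS : y ∈ S
      · refine ih (k' + 1) (Nat.land m' (row y)) h1 (by omega) (S.erase y) ?_ ?_ ?_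
        · rw [card_erase_of_mem hyS, hS]; rfl
        · intro a ha
          have hay : a ≠ y := ne_of_mem_erase ha
          have haS : a ∈ S := mem_of_mem_erase ha
          rw [tb_land, hbit a hay (hm a haS), hcl y hyS a haS (Ne.symm hay)]
          rfl
        · intro a ha b hb' hab
          exact hcl a (mem_of_mem_erase ha) b (mem_of_mem_erase hb') hab
      · refine ih (k' + 2) m' h2 (by omega) S hS ?_ hcl
        intro a ha
        exact hbit a (fun e => hyS (e ▸ ha)) (hm a ha)

theorem tb_maskX {a : ℕ} (ha : a < 416) : tb maskX a = decide (96 ≤ a) := by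
  have h : maskX = 2 ^ 96 * (2 ^ 320 - 1) := by
    unfold maskX
    change 2 ^ 416 - 2 ^ 96 = _
    rw [Nat.mul_sub, mul_one, ← pow_add]
  rw [tb_eq, h]
  by_cases h96 : 96 ≤ a
  · rw [Nat.testBit_two_pow_mul]
    have h2 : (2 ^ 320 - 1).testBit (a - 96) = true := by
      rw [Nat.testBit_two_pow_sub_one]
      simp
      omega
    simp [h96, h2]
  · rw [Nat.testBit_two_pow_mul]
    simp [h96]

theorem noK5Below_all {y : ℕ} (h1 : 96 ≤ y) (h2 : y < 416) : noK5Below y = true := by
  by_cases h0 : y < 178
  · exact use_chunk check_k6_0 (by omega) (by omega)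
  by_cases h1 : y < 209
  · exact use_chunk check_k6_1 (by omega) (by omega)
  by_cases h2 : y < 224
  · exact use_chunk check_k6_2 (by omega) (by omega)
  by_cases h3 : y < 234
  · exact use_chunk check_k6_3 (by omega) (by omega)
  by_cases h4 : y < 244
  · exact use_chunk check_k6_4 (by omega) (by omega)
  by_cases h5 : y < 253
  · exact use_chunk check_k6_5 (by omega) (by omega)
  by_cases h6 : y < 261
  · exact use_chunk check_k6_6 (by omega) (by omega)
  by_cases h7 : y < 268
  · exact use_chunk check_k6_7 (by omega) (by omega)
  by_cases h8 : y < 274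
  · exact use_chunk check_k6_8 (by omega) (by omega)
  by_cases h9 : y < 279
  · exact use_chunk check_k6_9 (by omega) (by omega)
  by_cases h10 : y < 284
  · exact use_chunk check_k6_10 (by omega) (by omega)
  by_cases h11 : y < 288
  · exact use_chunk check_k6_11 (by omega) (by omega)
  by_cases h12 : y < 290
  · exact use_chunk check_k6_12 (by omega) (by omega)
  by_cases h13 : y < 292
  · exact use_chunk check_k6_13 (by omega) (by omega)
  by_cases h14 : y < 294
  · exact use_chunk check_k6_14 (by omega) (by omega)
  by_cases h15 : y < 296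
  · exact use_chunk check_k6_15 (by omega) (by omega)
  by_cases h16 : y < 298
  · exact use_chunk check_k6_16 (by omega) (by omega)
  by_cases h17 : y < 300
  · exact use_chunk check_k6_17 (by omega) (by omega)
  by_cases h18 : y < 302
  · exact use_chunk check_k6_18 (by omega) (by omega)
  by_cases h19 : y < 304
  · exact use_chunk check_k6_19 (by omega) (by omega)
  by_cases h20 : y < 306
  · exact use_chunk check_k6_20 (by omega) (by omega)
  by_cases h21 : y < 308
  · exact use_chunk check_k6_21 (by omega) (by omega)
  by_cases h22 : y < 310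
  · exact use_chunk check_k6_22 (by omega) (by omega)
  by_cases h23 : y < 312
  · exact use_chunk check_k6_23 (by omega) (by omega)
  by_cases h24 : y < 314
  · exact use_chunk check_k6_24 (by omega) (by omega)
  by_cases h25 : y < 316
  · exact use_chunk check_k6_25 (by omega) (by omega)
  by_cases h26 : y < 318
  · exact use_chunk check_k6_26 (by omega) (by omega)
  by_cases h27 : y < 320
  · exact use_chunk check_k6_27 (by omega) (by omega)
  by_cases h28 : y < 322
  · exact use_chunk check_k6_28 (by omega) (by omega)
  by_cases h29 : y < 324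
  · exact use_chunk check_k6_29 (by omega) (by omega)
  by_cases h30 : y < 326
  · exact use_chunk check_k6_30 (by omega) (by omega)
  by_cases h31 : y < 328
  · exact use_chunk check_k6_31 (by omega) (by omega)
  by_cases h32 : y < 330
  · exact use_chunk check_k6_32 (by omega) (by omega)
  by_cases h33 : y < 331
  · exact use_chunk check_k6_33 (by omega) (by omega)
  by_cases h34 : y < 333
  · exact use_chunk check_k6_34 (by omega) (by omega)
  by_cases h35 : y < 335
  · exact use_chunk check_k6_35 (by omega) (by omega)
  by_cases h36 : y < 337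
  · exact use_chunk check_k6_36 (by omega) (by omega)
  by_cases h37 : y < 339
  · exact use_chunk check_k6_37 (by omega) (by omega)
  by_cases h38 : y < 340
  · exact use_chunk check_k6_38 (by omega) (by omega)
  by_cases h39 : y < 342
  · exact use_chunk check_k6_39 (by omega) (by omega)
  by_cases h40 : y < 343
  · exact use_chunk check_k6_40 (by omega) (by omega)
  by_cases h41 : y < 344
  · exact use_chunk check_k6_41 (by omega) (by omega)
  by_cases h42 : y < 345
  · exact use_chunk check_k6_42 (by omega) (by omega)
  by_cases h43 : y < 346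
  · exact use_chunk check_k6_43 (by omega) (by omega)
  by_cases h44 : y < 347
  · exact use_chunk check_k6_44 (by omega) (by omega)
  by_cases h45 : y < 348
  · exact use_chunk check_k6_45 (by omega) (by omega)
  by_cases h46 : y < 349
  · exact use_chunk check_k6_46 (by omega) (by omega)
  by_cases h47 : y < 350
  · exact use_chunk check_k6_47 (by omega) (by omega)
  by_cases h48 : y < 351
  · exact use_chunk check_k6_48 (by omega) (by omega)
  by_cases h49 : y < 352
  · exact use_chunk check_k6_49 (by omega) (by omega)
  by_cases h50 : y < 353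
  · exact use_chunk check_k6_50 (by omega) (by omega)
  by_cases h51 : y < 354
  · exact use_chunk check_k6_51 (by omega) (by omega)
  by_cases h52 : y < 355
  · exact use_chunk check_k6_52 (by omega) (by omega)
  by_cases h53 : y < 356
  · exact use_chunk check_k6_53 (by omega) (by omega)
  by_cases h54 : y < 357
  · exact use_chunk check_k6_54 (by omega) (by omega)
  by_cases h55 : y < 358
  · exact use_chunk check_k6_55 (by omega) (by omega)
  by_cases h56 : y < 359
  · exact use_chunk check_k6_56 (by omega) (by omega)
  by_cases h57 : y < 360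
  · exact use_chunk check_k6_57 (by omega) (by omega)
  by_cases h58 : y < 361
  · exact use_chunk check_k6_58 (by omega) (by omega)
  by_cases h59 : y < 362
  · exact use_chunk check_k6_59 (by omega) (by omega)
  by_cases h60 : y < 363
  · exact use_chunk check_k6_60 (by omega) (by omega)
  by_cases h61 : y < 364
  · exact use_chunk check_k6_61 (by omega) (by omega)
  by_cases h62 : y < 365
  · exact use_chunk check_k6_62 (by omega) (by omega)
  by_cases h63 : y < 366
  · exact use_chunk check_k6_63 (by omega) (by omega)
  by_cases h64 : y < 367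
  · exact use_chunk check_k6_64 (by omega) (by omega)
  by_cases h65 : y < 368
  · exact use_chunk check_k6_65 (by omega) (by omega)
  by_cases h66 : y < 369
  · exact use_chunk check_k6_66 (by omega) (by omega)
  by_cases h67 : y < 370
  · exact use_chunk check_k6_67 (by omega) (by omega)
  by_cases h68 : y < 371
  · exact use_chunk check_k6_68 (by omega) (by omega)
  by_cases h69 : y < 372
  · exact use_chunk check_k6_69 (by omega) (by omega)
  by_cases h70 : y < 373
  · exact use_chunk check_k6_70 (by omega) (by omega)
  by_cases h71 : y < 374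
  · exact use_chunk check_k6_71 (by omega) (by omega)
  by_cases h72 : y < 375
  · exact use_chunk check_k6_72 (by omega) (by omega)
  by_cases h73 : y < 376
  · exact use_chunk check_k6_73 (by omega) (by omega)
  by_cases h74 : y < 377
  · exact use_chunk check_k6_74 (by omega) (by omega)
  by_cases h75 : y < 378
  · exact use_chunk check_k6_75 (by omega) (by omega)
  by_cases h76 : y < 379
  · exact use_chunk check_k6_76 (by omega) (by omega)
  by_cases h77 : y < 380
  · exact use_chunk check_k6_77 (by omega) (by omega)
  by_cases h78 : y < 381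
  · exact use_chunk check_k6_78 (by omega) (by omega)
  by_cases h79 : y < 382
  · exact use_chunk check_k6_79 (by omega) (by omega)
  by_cases h80 : y < 383
  · exact use_chunk check_k6_80 (by omega) (by omega)
  by_cases h81 : y < 384
  · exact use_chunk check_k6_81 (by omega) (by omega)
  by_cases h82 : y < 385
  · exact use_chunk check_k6_82 (by omega) (by omega)
  by_cases h83 : y < 386
  · exact use_chunk check_k6_83 (by omega) (by omega)
  by_cases h84 : y < 387
  · exact use_chunk check_k6_84 (by omega) (by omega)
  by_cases h85 : y < 388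
  · exact use_chunk check_k6_85 (by omega) (by omega)
  by_cases h86 : y < 389
  · exact use_chunk check_k6_86 (by omega) (by omega)
  by_cases h87 : y < 390
  · exact use_chunk check_k6_87 (by omega) (by omega)
  by_cases h88 : y < 391
  · exact use_chunk check_k6_88 (by omega) (by omega)
  by_cases h89 : y < 392
  · exact use_chunk check_k6_89 (by omega) (by omega)
  by_cases h90 : y < 393
  · exact use_chunk check_k6_90 (by omega) (by omega)
  by_cases h91 : y < 394
  · exact use_chunk check_k6_91 (by omega) (by omega)
  by_cases h92 : y < 395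
  · exact use_chunk check_k6_92 (by omega) (by omega)
  by_cases h93 : y < 396
  · exact use_chunk check_k6_93 (by omega) (by omega)
  by_cases h94 : y < 397
  · exact use_chunk check_k6_94 (by omega) (by omega)
  by_cases h95 : y < 398
  · exact use_chunk check_k6_95 (by omega) (by omega)
  by_cases h96 : y < 399
  · exact use_chunk check_k6_96 (by omega) (by omega)
  by_cases h97 : y < 400
  · exact use_chunk check_k6_97 (by omega) (by omega)
  by_cases h98 : y < 401
  · exact use_chunk check_k6_98 (by omega) (by omega)
  by_cases h99 : y < 402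
  · exact use_chunk check_k6_99 (by omega) (by omega)
  by_cases h100 : y < 403
  · exact use_chunk check_k6_100 (by omega) (by omega)
  by_cases h101 : y < 404
  · exact use_chunk check_k6_101 (by omega) (by omega)
  by_cases h102 : y < 405
  · exact use_chunk check_k6_102 (by omega) (by omega)
  by_cases h103 : y < 406
  · exact use_chunk check_k6_103 (by omega) (by omega)
  by_cases h104 : y < 407
  · exact use_chunk check_k6_104 (by omega) (by omega)
  by_cases h105 : y < 408
  · exact use_chunk check_k6_105 (by omega) (by omega)
  by_cases h106 : y < 409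
  · exact use_chunk check_k6_106 (by omega) (by omega)
  by_cases h107 : y < 410
  · exact use_chunk check_k6_107 (by omega) (by omega)
  by_cases h108 : y < 411
  · exact use_chunk check_k6_108 (by omega) (by omega)
  by_cases h109 : y < 412
  · exact use_chunk check_k6_109 (by omega) (by omega)
  by_cases h110 : y < 413
  · exact use_chunk check_k6_110 (by omega) (by omega)
  by_cases h111 : y < 414
  · exact use_chunk check_k6_111 (by omega) (by omega)
  by_cases h112 : y < 415
  · exact use_chunk check_k6_112 (by omega) (by omega)
  exact use_chunk check_k6_113 (by omega) (by omega)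

/-- A clique of vertices of `X = {96, ..., 415}` has at most 5 elements. -/
theorem clique_card_le_five (S : Finset ℕ) (hS : ∀ a ∈ S, 96 ≤ a ∧ a < 416)
    (hcl : ∀ a ∈ S, ∀ b ∈ S, a ≠ b → tb (row a) b = true) : S.card ≤ 5 := by
  by_contra hc
  push Not at hc
  obtain ⟨T, hTS, hT⟩ := exists_subset_card_eq (show 6 ≤ S.card by omega)
  have hne : T.Nonempty := by rw [← card_pos]; omega
  set y := T.max' hne with hy
  have hyT : y ∈ T := max'_mem T hne
  have hyb := hS y (hTS hyT)
  refine cf_sound 416 5 _ (noK5Below_all hyb.1 hyb.2) (by norm_num) (T.erase y) ?_ ?_ ?_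
  · rw [card_erase_of_mem hyT, hT]
  · intro a ha
    have hay : a ≠ y := ne_of_mem_erase ha
    have haT := mem_of_mem_erase ha
    have hab := hS a (hTS haT)
    have hlt : a < y := lt_of_le_of_ne (le_max' T a haT) hay
    rw [tb_land, tb_land, tb_maskX hab.2, hcl y (hTS hyT) a (hTS haT) (Ne.symm hay)]
    have h96 : decide (96 ≤ a) = true := by simpa using hab.1
    rw [h96]
    have : tb (Nat.sub (Nat.pow 2 y) 1) a = true := by
      rw [tb_eq]
      change (2 ^ y - 1).testBit a = true
      rw [Nat.testBit_two_pow_sub_one]
      simpa using hlt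
    rw [this]
    rfl
  · intro a ha b hb' hab
    exact hcl a (hTS (mem_of_mem_erase ha)) b (hTS (mem_of_mem_erase hb')) hab

/-- A clique of vertices of `X` adjacent to the vertex `0` has at most 4 elements. -/
theorem clique_card_le_four (S : Finset ℕ) (hS : ∀ a ∈ S, 96 ≤ a ∧ a < 416 ∧ tb (row 0) a = true)
    (hcl : ∀ a ∈ S, ∀ b ∈ S, a ≠ b → tb (row a) b = true) : S.card ≤ 4 := by
  by_contra hc
  push Not at hc
  obtain ⟨T, hTS, hT⟩ := exists_subset_card_eq (show 5 ≤ S.card by omega)
  refine cf_sound 416 5 _ check_cliqueU (by norm_num) T hT ?_ ?_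
  · intro a ha
    have hab := hS a (hTS ha)
    rw [tb_land, tb_maskX hab.2.1, hab.2.2]
    have h96 : decide (96 ≤ a) = true := by simpa using hab.1
    rw [h96]
    rfl
  · intro a ha b hb' hab
    exact hcl a (hTS ha) b (hTS hb') hab

end Vale.Agent.Lib.P052
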